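/-
Seat helper367 (P028, full BM, classes C2 and C3): the sum over the patterns.

`pat_one`, `pat_pairs`: sum of `n^(-2/5) Gn(n)^2` over the numbers composed of the primes of a set
`P` with `∑ p^(-1/3) ≤ 1/4`.  `pat_holder`: Hoelder's inequality for bounds given pattern by
pattern.
-/
import Vale.Agent.P028.FQ.NTop

open Finset

namespace Vale.P028.Pat

/-- `n ↦ n ^ (- 1 / 3)` -/
noncomputable def pw3 : ℕ →* ℝ where
  toFun n := (n : ℝ) ^ (-(1 / 3) : ℝ)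
  map_one' := by simp
  map_mul' m n := by
    push_cast
    exact Real.mul_rpow (Nat.cast_nonneg _) (Nat.cast_nonneg _)

theorem pw3_apply (n : ℕ) : pw3 n = (n : ℝ) ^ (-(1 / 3) : ℝ) := rfl

theorem pw3_nonneg (n : ℕ) : 0 ≤ pw3 n := by
  rw [pw3_apply]
  positivity

theorem pw3_lt_one {p : ℕ} (hp : p.Prime) : pw3 p < 1 := by
  rw [pw3_apply]
  exact Real.rpow_lt_one_of_one_lt_of_neg (by exact_mod_cast hp.one_lt) (by norm_num)

/-- the sum over the numbers composed of the primes of `P` -/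
theorem smooth3 {P : Finset ℕ} (hP : ∀ p ∈ P, p.Prime) (Z : Finset ℕ)
    (hZ : ∀ w ∈ Z, w ≠ 0 ∧ w.primeFactors ⊆ P) :
    ∑ w ∈ Z, pw3 w ≤ ∏ p ∈ P, (1 - pw3 p)⁻¹ := by
  classical
  have hlt1 : ∀ {p : ℕ}, p.Prime → ‖pw3 p‖ < 1 := by
    intro p hp
    rw [Real.norm_of_nonneg (pw3_nonneg p)]
    exact pw3_lt_one hp
  obtain ⟨hsum, hhas⟩ :=
    EulerProduct.summable_and_hasSum_factoredNumbers_prod_filter_prime_geometric
      (f := pw3) hlt1 P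
  have hmem : ∀ u ∈ Z, u ∈ Nat.factoredNumbers P := by
    intro u hu
    exact Nat.mem_factoredNumbers_iff_primeFactors_subset.2 (hZ u hu)
  have h5 : ∑ u ∈ Z, pw3 u =
      ∑ m ∈ Z.attach.image (fun u => (⟨u.1, hmem u.1 u.2⟩ : Nat.factoredNumbers P)),
        pw3 m.1 := by
    rw [sum_image]
    · rw [← sum_attach]
    · intro a _ b _ hab
      have : a.1 = b.1 := by simpa using congrArg Subtype.val hab
      exact Subtype.ext this
  have h6 : P.filter (fun p => p.Prime) = P := filter_true_of_mem hP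
  rw [h6] at hhas
  rw [h5, ← hhas.tsum_eq]
  exact hhas.summable.sum_le_tsum _ (fun m _ => pw3_nonneg _)

/-- the primes of a sparse set are at least `64` -/
theorem sparse_ge {P : Finset ℕ} (hP : ∀ p ∈ P, p.Prime)
    (hs : ∑ p ∈ P, (p : ℝ) ^ (-(1 / 3) : ℝ) ≤ 1 / 4) {p : ℕ} (hp : p ∈ P) : 64 ≤ p := by
  have h1 : (p : ℝ) ^ (-(1 / 3) : ℝ) ≤ 1 / 4 := by
    refine le_trans ?_ hs
    exact single_le_sum (f := fun p : ℕ => (p : ℝ) ^ (-(1 / 3) : ℝ))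
      (fun i _ => Real.rpow_nonneg (Nat.cast_nonneg _) _) hp
  have hp0 : (0 : ℝ) < p := by exact_mod_cast (hP p hp).pos
  by_contra hcon
  push Not at hcon
  have h2 : (p : ℝ) < 64 := by exact_mod_cast hcon
  have h3 : (64 : ℝ) ^ (-(1 / 3) : ℝ) < (p : ℝ) ^ (-(1 / 3) : ℝ) :=
    Real.rpow_lt_rpow_of_neg hp0 h2 (by norm_num)
  have h4 : (64 : ℝ) ^ (-(1 / 3) : ℝ) = 1 / 4 := by
    rw [show (64 : ℝ) = 4 ^ (3 : ℝ) by norm_num, ← Real.rpow_mul (by norm_num)]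
    norm_num
  linarith

/-- the Euler product of a sparse set -/
theorem euler_le {P : Finset ℕ} (hP : ∀ p ∈ P, p.Prime)
    (hs : ∑ p ∈ P, (p : ℝ) ^ (-(1 / 3) : ℝ) ≤ 1 / 4) :
    ∏ p ∈ P, (1 - pw3 p)⁻¹ ≤ Real.exp (1 / 2) := by
  have hone : ∀ p ∈ P, pw3 p ≤ 1 / 4 := by
    intro p hp
    refine le_trans ?_ hs
    exact single_le_sum (f := fun p : ℕ => (p : ℝ) ^ (-(1 / 3) : ℝ))
      (fun i _ => Real.rpow_nonneg (Nat.cast_nonneg _) _) hp
  calc ∏ p ∈ P, (1 - pw3 p)⁻¹ ≤ ∏ p ∈ P, Real.exp (2 * pw3 p) := by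
        refine prod_le_prod (fun p hp => ?_) fun p hp => ?_
        · exact inv_nonneg.2 (by linarith [hone p hp])
        · have h1 := hone p hp
          have h0 := pw3_nonneg p
          have h2 : 1 + 2 * pw3 p ≤ Real.exp (2 * pw3 p) := by
            linarith [Real.add_one_le_exp (2 * pw3 p)]
          refine le_trans ?_ h2
          rw [inv_le_iff_one_le_mul₀ (by linarith)]
          nlinarith
    _ = Real.exp (2 * ∑ p ∈ P, pw3 p) := by rw [← Real.exp_sum, mul_sum]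
    _ ≤ Real.exp (1 / 2) := by
        apply Real.exp_le_exp.2
        have : ∑ p ∈ P, pw3 p ≤ 1 / 4 := hs
        linarith

/-- the weight with the factors `n / φ(n)` -/
theorem weight_le {n : ℕ} (hn : n ≠ 0) (h : ∀ p ∈ n.primeFactors, 64 ≤ p) :
    (n : ℝ) ^ (-(2 / 5) : ℝ) * (NT.Gn n) ^ 2 ≤ pw3 n := by
  have hn0 : (0 : ℝ) < n := by exact_mod_cast Nat.pos_of_ne_zero hn
  have h1 : (NT.Gn n) ^ 2 ≤ (n : ℝ) ^ (1 / 15 : ℝ) := by
    unfold NT.Gn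
    rw [← prod_pow]
    calc ∏ p ∈ n.primeFactors, ((1 - 1 / (p : ℝ))⁻¹) ^ 2
        ≤ ∏ p ∈ n.primeFactors, ((p : ℝ) ^ n.factorization p) ^ (1 / 15 : ℝ) := by
          refine prod_le_prod (fun p _ => sq_nonneg _) fun p hp => ?_
          have hp64 : (64 : ℝ) ≤ p := by exact_mod_cast h p hp
          have hpp := Nat.prime_of_mem_primeFactors hp
          have hfac : 1 ≤ n.factorization p :=
            (hpp.dvd_iff_one_le_factorization hn).1 (Nat.dvd_of_mem_primeFactors hp)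
          have h2 : ((1 - 1 / (p : ℝ))⁻¹) ^ 2 ≤ 5 / 4 := by
            have h3 : 1 / (p : ℝ) ≤ 1 / 64 := one_div_le_one_div_of_le (by norm_num) hp64
            have h4 : (1 - 1 / (p : ℝ))⁻¹ ≤ 64 / 63 := by
              rw [inv_le_comm₀ (by linarith) (by norm_num)]
              linarith
            have h5 : 0 ≤ (1 - 1 / (p : ℝ))⁻¹ := inv_nonneg.2 (by linarith)
            calc ((1 - 1 / (p : ℝ))⁻¹) ^ 2 ≤ (64 / 63) ^ 2 := pow_le_pow_left₀ h5 h4 2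
              _ ≤ 5 / 4 := by norm_num
          refine h2.trans ?_
          have h6 : (64 : ℝ) ≤ (p : ℝ) ^ n.factorization p := by
            calc (64 : ℝ) ≤ p := hp64
              _ = (p : ℝ) ^ 1 := (pow_one _).symm
              _ ≤ _ := pow_le_pow_right₀ (by linarith) hfac
          have h7 : (5 / 4 : ℝ) ≤ (64 : ℝ) ^ (1 / 15 : ℝ) := by
            calc (5 / 4 : ℝ) = ((5 / 4 : ℝ) ^ (15 : ℕ)) ^ (1 / 15 : ℝ) := by
                  rw [← Real.rpow_natCast, ← Real.rpow_mul (by norm_num)]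
                  norm_num
              _ ≤ (64 : ℝ) ^ (1 / 15 : ℝ) :=
                  Real.rpow_le_rpow (by norm_num) (by norm_num) (by norm_num)
          exact h7.trans (Real.rpow_le_rpow (by norm_num) h6 (by norm_num))
      _ = (∏ p ∈ n.primeFactors, (p : ℝ) ^ n.factorization p) ^ (1 / 15 : ℝ) := by
          rw [Real.finset_prod_rpow _ _ fun p _ => by positivity]
      _ = (n : ℝ) ^ (1 / 15 : ℝ) := by
          congr 1
          exact_mod_cast Nat.prod_factorization_pow_eq_self hn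
  rw [pw3_apply]
  calc (n : ℝ) ^ (-(2 / 5) : ℝ) * (NT.Gn n) ^ 2
      ≤ (n : ℝ) ^ (-(2 / 5) : ℝ) * (n : ℝ) ^ (1 / 15 : ℝ) := by gcongr
    _ = (n : ℝ) ^ (-(1 / 3) : ℝ) := by
        rw [← Real.rpow_add hn0]
        norm_num

/-- **sum over one number** -/
theorem pat_one {P : Finset ℕ} (hP : ∀ p ∈ P, p.Prime)
    (hs : ∑ p ∈ P, (p : ℝ) ^ (-(1 / 3) : ℝ) ≤ 1 / 4) (Z : Finset ℕ)
    (hZ : ∀ w ∈ Z, w ≠ 0 ∧ w.primeFactors ⊆ P) :
    ∑ w ∈ Z, (w : ℝ) ^ (-(2 / 5) : ℝ) * (NT.Gn w) ^ 2 ≤ Real.exp (1 / 2) :=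
  (sum_le_sum fun w hw => weight_le (hZ w hw).1 fun _ hp =>
    sparse_ge hP hs ((hZ w hw).2 hp)).trans ((smooth3 hP Z hZ).trans (euler_le hP hs))

/-- **sum over the patterns** -/
theorem pat_pairs {P : Finset ℕ} (hP : ∀ p ∈ P, p.Prime)
    (hs : ∑ p ∈ P, (p : ℝ) ^ (-(1 / 3) : ℝ) ≤ 1 / 4) (A : Finset (ℕ × ℕ))
    (hA : ∀ x ∈ A, x.1 ≠ 0 ∧ x.2 ≠ 0 ∧ x.1.primeFactors ⊆ P ∧ x.2.primeFactors ⊆ P) :
    ∑ x ∈ A, ((x.1 : ℝ) * x.2) ^ (-(2 / 5) : ℝ) * (NT.Gn x.1 * NT.Gn x.2) ^ 2 ≤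
      Real.exp 1 := by
  classical
  have h1 : ∑ x ∈ A, ((x.1 : ℝ) * x.2) ^ (-(2 / 5) : ℝ) * (NT.Gn x.1 * NT.Gn x.2) ^ 2 ≤
      ∑ x ∈ (A.image Prod.fst) ×ˢ (A.image Prod.snd),
        ((x.1 : ℝ) ^ (-(2 / 5) : ℝ) * (NT.Gn x.1) ^ 2) *
          ((x.2 : ℝ) ^ (-(2 / 5) : ℝ) * (NT.Gn x.2) ^ 2) := by
    have e : ∀ x ∈ A, ((x.1 : ℝ) * x.2) ^ (-(2 / 5) : ℝ) * (NT.Gn x.1 * NT.Gn x.2) ^ 2 =
        ((x.1 : ℝ) ^ (-(2 / 5) : ℝ) * (NT.Gn x.1) ^ 2) *
          ((x.2 : ℝ) ^ (-(2 / 5) : ℝ) * (NT.Gn x.2) ^ 2) := by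
      intro x _
      rw [Real.mul_rpow (Nat.cast_nonneg _) (Nat.cast_nonneg _)]
      ring
    rw [sum_congr rfl e]
    refine sum_le_sum_of_subset_of_nonneg ?_ fun x _ _ => by positivity
    intro x hx
    exact mem_product.2 ⟨mem_image_of_mem _ hx, mem_image_of_mem _ hx⟩
  refine h1.trans ?_
  rw [sum_product]
  simp only [← mul_sum, ← sum_mul]
  have h2 := pat_one hP hs (A.image Prod.fst) (fun w hw => by
    obtain ⟨x, hx, rfl⟩ := mem_image.1 hw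
    exact ⟨(hA x hx).1, (hA x hx).2.2.1⟩)
  have h3 := pat_one hP hs (A.image Prod.snd) (fun w hw => by
    obtain ⟨x, hx, rfl⟩ := mem_image.1 hw
    exact ⟨(hA x hx).2.1, (hA x hx).2.2.2⟩)
  have h4 : 0 ≤ ∑ w ∈ A.image Prod.snd, (w : ℝ) ^ (-(2 / 5) : ℝ) * (NT.Gn w) ^ 2 :=
    sum_nonneg fun w _ => by positivity
  calc _ ≤ Real.exp (1 / 2) * Real.exp (1 / 2) := mul_le_mul h2 h3 h4 (Real.exp_pos _).le
    _ = Real.exp 1 := by rw [← Real.exp_add]; norm_num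

/-- **Hoelder's inequality, pattern by pattern.** -/
theorem pat_holder {ι β β' : Type*} (T : Finset ι) (S : Finset β) (S' : Finset β')
    (P₁ : ι → β → Prop) (P₂ : ι → β' → Prop) [∀ t, DecidablePred (P₁ t)]
    [∀ t, DecidablePred (P₂ t)] {w fo : ι → ℝ} {F : β → ℝ} {F' : β' → ℝ} {C₁ C₂ θ : ℝ}
    (hθ : 0 < θ) (hθ' : θ < 1) (hw : ∀ t ∈ T, 0 ≤ w t) (hF : ∀ e ∈ S, 0 ≤ F e)
    (hF' : ∀ e ∈ S', 0 ≤ F' e)
    (h1 : ∀ e ∈ S, ∑ t ∈ T.filter (fun t => P₁ t e), w t ≤ C₁)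
    (h2 : ∀ e ∈ S', ∑ t ∈ T.filter (fun t => P₂ t e), w t ≤ C₂)
    (hfo : ∀ t ∈ T, fo t ≤ w t * ((∑ e ∈ S.filter (P₁ t), F e) ^ θ *
      (∑ e ∈ S'.filter (P₂ t), F' e) ^ (1 - θ))) :
    ∑ t ∈ T, fo t ≤ (C₁ * ∑ e ∈ S, F e) ^ θ * (C₂ * ∑ e ∈ S', F' e) ^ (1 - θ) := by
  classical
  set x : ι → ℝ := fun t => ∑ e ∈ S.filter (P₁ t), F e with hx
  set y : ι → ℝ := fun t => ∑ e ∈ S'.filter (P₂ t), F' e with hy
  have hx0 : ∀ t, 0 ≤ x t := fun t => sum_nonneg fun e he => hF e (mem_filter.1 he).1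
  have hy0 : ∀ t, 0 ≤ y t := fun t => sum_nonneg fun e he => hF' e (mem_filter.1 he).1
  have hθ1 : 0 < 1 - θ := by linarith
  have hpq : (1 / θ).HolderConjugate (1 / (1 - θ)) := by
    rw [Real.holderConjugate_iff]
    refine ⟨?_, ?_⟩
    · rw [lt_div_iff₀ hθ]
      linarith
    · rw [one_div, one_div, inv_inv, inv_inv]
      ring
  have e0 : ∀ t ∈ T, w t * (x t ^ θ * y t ^ (1 - θ)) =
      ((w t * x t) ^ θ) * ((w t * y t) ^ (1 - θ)) := by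
    intro t ht
    rw [Real.mul_rpow (hw t ht) (hx0 t), Real.mul_rpow (hw t ht) (hy0 t)]
    have : w t = w t ^ θ * w t ^ (1 - θ) := by
      rcases (hw t ht).eq_or_lt with h | h
      · rw [← h, Real.zero_rpow hθ.ne', zero_mul]
      · rw [← Real.rpow_add h]
        simp
    nth_rewrite 1 [this]
    ring
  have hH := Real.inner_le_Lp_mul_Lq_of_nonneg T hpq
    (f := fun t => (w t * x t) ^ θ) (g := fun t => (w t * y t) ^ (1 - θ))
    (fun t ht => Real.rpow_nonneg (mul_nonneg (hw t ht) (hx0 t)) _)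
    (fun t ht => Real.rpow_nonneg (mul_nonneg (hw t ht) (hy0 t)) _)
  have e1 : ∀ t ∈ T, ((w t * x t) ^ θ) ^ (1 / θ) = w t * x t := by
    intro t ht
    rw [← Real.rpow_mul (mul_nonneg (hw t ht) (hx0 t)), mul_one_div_cancel hθ.ne', Real.rpow_one]
  have e2 : ∀ t ∈ T, ((w t * y t) ^ (1 - θ)) ^ (1 / (1 - θ)) = w t * y t := by
    intro t ht
    rw [← Real.rpow_mul (mul_nonneg (hw t ht) (hy0 t)), mul_one_div_cancel hθ1.ne',
      Real.rpow_one]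
  rw [sum_congr rfl e1, sum_congr rfl e2, one_div_one_div, one_div_one_div] at hH
  have k1 : ∑ t ∈ T, w t * x t ≤ C₁ * ∑ e ∈ S, F e := by
    calc ∑ t ∈ T, w t * x t = ∑ e ∈ S, F e * ∑ t ∈ T.filter (fun t => P₁ t e), w t := by
          simp only [hx, mul_sum, sum_filter]
          rw [sum_comm]
          refine sum_congr rfl fun e _ => sum_congr rfl fun t _ => ?_
          split_ifs
          · ring
          · simp
      _ ≤ ∑ e ∈ S, F e * C₁ := sum_le_sum fun e he =>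
          mul_le_mul_of_nonneg_left (h1 e he) (hF e he)
      _ = _ := by rw [← sum_mul, mul_comm]
  have k2 : ∑ t ∈ T, w t * y t ≤ C₂ * ∑ e ∈ S', F' e := by
    calc ∑ t ∈ T, w t * y t = ∑ e ∈ S', F' e * ∑ t ∈ T.filter (fun t => P₂ t e), w t := by
          simp only [hy, mul_sum, sum_filter]
          rw [sum_comm]
          refine sum_congr rfl fun e _ => sum_congr rfl fun t _ => ?_
          split_ifs
          · ring
          · simp
      _ ≤ ∑ e ∈ S', F' e * C₂ := sum_le_sum fun e he =>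
          mul_le_mul_of_nonneg_left (h2 e he) (hF' e he)
      _ = _ := by rw [← sum_mul, mul_comm]
  have n1 : 0 ≤ ∑ t ∈ T, w t * x t := sum_nonneg fun t ht => mul_nonneg (hw t ht) (hx0 t)
  have n2 : 0 ≤ ∑ t ∈ T, w t * y t := sum_nonneg fun t ht => mul_nonneg (hw t ht) (hy0 t)
  calc ∑ t ∈ T, fo t ≤ ∑ t ∈ T, w t * (x t ^ θ * y t ^ (1 - θ)) := sum_le_sum hfo
    _ = ∑ t ∈ T, ((w t * x t) ^ θ) * ((w t * y t) ^ (1 - θ)) := sum_congr rfl e0
    _ ≤ (∑ t ∈ T, w t * x t) ^ θ * (∑ t ∈ T, w t * y t) ^ (1 - θ) := hH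
    _ ≤ _ := mul_le_mul (Real.rpow_le_rpow n1 k1 hθ.le) (Real.rpow_le_rpow n2 k2 hθ1.le)
        (Real.rpow_nonneg n2 _) (Real.rpow_nonneg (n1.trans k1) _)

end Vale.P028.Pat
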