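import Vale.Agent.P028.H734.X2PDefs
import Vale.Agent.P028.R367.Pat
attribute [-instance] ProperSMul.toContinuousSMul IsTopologicalTorsor.toContinuousSMul IdemSemiring.toCanonicallyOrderedAdd IdemSemiring.toMulLeftMono IdemSemiring.toMulRightMono AddQuantale.instAddLeftMono AddQuantale.instAddRightMono Quantale.instMulLeftMono Quantale.instMulRightMono FiniteDimensional.rclike_to_real IsScalarTower.complexToReal FiniteDimensional.complexToReal

/-!
# The energy theorem at a cut: outer reduction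

`X2t_of_X2P`: the bound for one rest pattern and one gap implies the bound for all patterns and
gaps.  `X2_of_X2t`: the two exponents together.
-/

namespace Vale.P028.SK

open Finset CF RN

variable {g : Cfg}

theorem Gn_ge_one (n : ℕ) : 1 ≤ NT.Gn n := by
  unfold NT.Gn
  have : ∏ p ∈ n.primeFactors, (1 : ℝ) ≤ ∏ p ∈ n.primeFactors, (1 - 1 / (p : ℝ))⁻¹ := by
    apply prod_le_prod (fun _ _ => by norm_num)
    intro p hp
    have hp2 : (2 : ℝ) ≤ p := by exact_mod_cast (Nat.prime_of_mem_primeFactors hp).two_le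
    have h0 : (0 : ℝ) < 1 / p := by positivity
    have h1 : 1 / (p : ℝ) ≤ 1 / 2 := one_div_le_one_div_of_le (by norm_num) hp2
    rw [one_le_inv₀ (by linarith)]
    linarith
  simpa using this

theorem Dvx_prime {x R p : ℕ} (h : p ∈ Dvx g x R) : p.Prime := (mem_filter.1 h).2.1

theorem bdX_nonneg {c1 c : ℝ} (h1 : 0 ≤ c1) (hc : 0 ≤ c) (x i : ℕ) (θ : ℝ) (a a' R R' : ℕ)
    {F F' : ℝ} (hF : 0 ≤ F) (hF' : 0 ≤ F') (u1 u2 v1 v2 : ℕ) :
    0 ≤ bdX g c1 c x i θ a a' R R' F F' u1 u2 v1 v2 := by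
  have h2 := wf_nonneg (g := g) h1 hc x a R u1
  have h3 := wf_nonneg (g := g) h1 hc x a' R' v1
  have h4 := Wt_nonneg (g := g) i R
  have h5 := Wt_nonneg (g := g) i R'
  unfold bdX
  positivity

/-- a place outside the range has no centre -/
theorem kc_pos_le {R p : ℕ} (h : R.factorization p < kc g R p) : p ≤ N g := by
  by_contra hcon
  have : kc g R p = 0 := by
    unfold CF.kc NT.kN
    rw [if_neg hcon]
  omega

/-- the rest pattern consists of deviating primes of both numbers -/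
theorem PairX.sub_Dvx {x i R R' u1 u2 v1 v2 H : ℕ} (h : PairX g x i R R' u1 u2 v1 v2 H) :
    (u2 * v2).primeFactors ⊆ Dvx g x R ∧ (u2 * v2).primeFactors ⊆ Dvx g x R' := by
  constructor
  · intro p hp
    have h1 := h.dev p hp
    exact mem_filter.2 ⟨mem_Icc.2 ⟨h1.1, kc_pos_le h1.2.2.1⟩,
      Nat.prime_of_mem_primeFactors hp, h1.2.2.1⟩
  · intro p hp
    have h1 := h.dev p hp
    exact mem_filter.2 ⟨mem_Icc.2 ⟨h1.1, kc_pos_le h1.2.2.2⟩,
      Nat.prime_of_mem_primeFactors hp, h1.2.2.2⟩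

/-- the sum over the patterns inside the deviating primes of one element -/
theorem pat_sumX {P : Finset ℕ} (hP : ∀ p ∈ P, p.Prime)
    (hs : ∑ p ∈ P, (p : ℝ) ^ (-(1 / 3) : ℝ) ≤ 1 / 4) (T : Finset (ℕ × ℕ))
    (hT : ∀ t ∈ T, t.1 ≠ 0 ∧ t.2 ≠ 0 ∧ (t.1 * t.2).primeFactors ⊆ P) :
    ∑ t ∈ T, ((t.1 : ℝ) * t.2) ^ (-(2 / 5) : ℝ) ≤ Real.exp 1 := by
  refine le_trans (sum_le_sum fun t _ => ?_) (Pat.pat_pairs hP hs T fun t ht => ?_)
  · have h1 : (1 : ℝ) ≤ (NT.Gn t.1 * NT.Gn t.2) ^ 2 :=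
      one_le_pow₀ (one_le_mul_of_one_le_of_one_le (Gn_ge_one _) (Gn_ge_one _))
    exact le_mul_of_one_le_right (Real.rpow_nonneg (by positivity) _) h1
  · obtain ⟨h1, h2, h3⟩ := hT t ht
    refine ⟨h1, h2, ?_, ?_⟩
    · exact (Nat.primeFactors_mono (dvd_mul_right _ _) (mul_ne_zero h1 h2)).trans h3
    · exact (Nat.primeFactors_mono (dvd_mul_left _ _) (mul_ne_zero h1 h2)).trans h3

/-- the classes of a triple sum -/
theorem sum_class {α β ι : Type*} [DecidableEq ι] (I : Finset α) (S : Finset β)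
    (E : α → β → β → ℝ) (k : α → β → β → ι) (T : Finset ι)
    (hT : ∀ i ∈ I, ∀ e ∈ S, ∀ e' ∈ S, E i e e' ≠ 0 → k i e e' ∈ T) :
    ∑ i ∈ I, ∑ e ∈ S, ∑ e' ∈ S, E i e e' =
      ∑ t ∈ T, ∑ i ∈ I, ∑ e ∈ S, ∑ e' ∈ S, (if k i e e' = t then E i e e' else 0) := by
  rw [sum_comm (s := T) (t := I)]
  refine sum_congr rfl fun i hi => ?_
  rw [sum_comm (s := T) (t := S)]
  refine sum_congr rfl fun e he => ?_
  rw [sum_comm (s := T) (t := S)]
  refine sum_congr rfl fun e' he' => ?_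
  rw [sum_ite_eq]
  split_ifs with h
  · rfl
  · by_contra hcon
    exact h (hT i hi e he e' he' hcon)

/-- **from one pattern and one gap to the energy theorem** -/
theorem X2t_of_X2P {c1 c θ C : ℝ} (_h1 : 0 ≤ c1) (_hc : 0 ≤ c) (hθ : 0 < θ) (_hθ' : θ < 1)
    (hC : 0 ≤ C) (h : X2P c1 c θ C) : X2t c1 c θ (C * Real.exp 1) := by
  classical
  intro g x hx hz β S nu hl cc Fm hF A B bt hA hbt hB I E hI hE
  -- the pattern of a triple
  let Q : ℕ → β → β → ℕ × ℕ → Prop := fun i e e' t =>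
    ∃ u1 v1 H, PairX g x i (nu e) (nu e') u1 t.1 v1 t.2 H ∧
      E i e e' ≤ A * bt (hl e' - hl e) *
        bdX g c1 c x i θ (cc e) (cc e') (nu e) (nu e') (Fm e) (Fm e') u1 t.1 v1 t.2
  let pat : ℕ → β → β → ℕ × ℕ := fun i e e' => Classical.epsilon (Q i e e')
  have hpat : ∀ i ∈ I, ∀ e ∈ S, ∀ e' ∈ S, E i e e' ≠ 0 → Q i e e' (pat i e e') := by
    intro i hi e he e' he' hne
    obtain ⟨-, h2⟩ := hE i hi e he e' he'
    obtain ⟨-, u1, u2, v1, v2, H, h3, h4⟩ := h2 hne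
    exact Classical.epsilon_spec (p := Q i e e') ⟨(u2, v2), u1, v1, H, h3, h4⟩
  -- the classes
  let k : ℕ → β → β → (ℕ × ℕ) × ℤ := fun i e e' => (pat i e e', hl e' - hl e)
  let T : Finset (ℕ × ℕ) := ((I ×ˢ (S ×ˢ S)).filter (fun y => E y.1 y.2.1 y.2.2 ≠ 0)).image
    (fun y => pat y.1 y.2.1 y.2.2)
  let L : Finset ℤ := (S ×ˢ S).image (fun y => hl y.2 - hl y.1)
  have hT : ∀ i ∈ I, ∀ e ∈ S, ∀ e' ∈ S, E i e e' ≠ 0 → k i e e' ∈ T ×ˢ L := by
    intro i hi e he e' he' hne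
    refine mem_product.2 ⟨mem_image.2 ⟨(i, e, e'), mem_filter.2 ⟨?_, hne⟩, rfl⟩,
      mem_image.2 ⟨(e, e'), mem_product.2 ⟨he, he'⟩, rfl⟩⟩
    exact mem_product.2 ⟨hi, mem_product.2 ⟨he, he'⟩⟩
  rw [sum_class I S E k (T ×ˢ L) hT, sum_product]
  have hTp : ∀ t ∈ T, t.1.Coprime t.2 ∧ 0 < t.1 ∧ 0 < t.2 := by
    intro t ht
    obtain ⟨y, hy, rfl⟩ := mem_image.1 ht
    obtain ⟨hy1, hy2⟩ := mem_filter.1 hy
    obtain ⟨hi, hy3⟩ := mem_product.1 hy1
    obtain ⟨he, he'⟩ := mem_product.1 hy3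
    obtain ⟨u1, v1, H, h3, -⟩ := hpat y.1 hi y.2.1 he y.2.2 he' hy2
    exact ⟨h3.cop, h3.pos.1, h3.pos.2⟩
  -- the mass compatible with a pattern
  let P : ℕ × ℕ → β → Prop := fun t e => (t.1 * t.2).primeFactors ⊆ Dvx g x (nu e)
  have hm0 : ∀ t, 0 ≤ ∑ e ∈ S.filter (P t), Fm e := fun t =>
    sum_nonneg fun e he => hF.mass e (mem_filter.1 he).1
  have key : ∀ t ∈ T, ∀ l ∈ L,
      ∑ i ∈ I, ∑ e ∈ S, ∑ e' ∈ S, (if k i e e' = (t, l) then E i e e' else 0) ≤
        (A * bt l) * (C * (((t.1 : ℝ) * t.2) ^ (-(2 / 5) : ℝ) * ∑ e ∈ S.filter (P t), Fm e)) := by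
    intro t ht l _
    have hX := h g x hx hz S nu hl cc Fm hF t.1 t.2 l (hTp t ht).1 (hTp t ht).2.1 (hTp t ht).2.2
      I (fun i e e' => if k i e e' = (t, l) then E i e e' / (A * bt l) else 0) hI ?_
    · have e1 : (∑ e ∈ S.filter (P t), Fm e) ^ θ * (∑ e ∈ S.filter (P t), Fm e) ^ (1 - θ) =
          ∑ e ∈ S.filter (P t), Fm e := by
        rcases (hm0 t).eq_or_lt with h0 | h0
        · rw [← h0, Real.zero_rpow hθ.ne', zero_mul]
        · rw [← Real.rpow_add h0]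
          simp
      have e2 : ∑ i ∈ I, ∑ e ∈ S, ∑ e' ∈ S, (if k i e e' = (t, l) then E i e e' else 0) =
          (A * bt l) * ∑ i ∈ I, ∑ e ∈ S, ∑ e' ∈ S,
            (if k i e e' = (t, l) then E i e e' / (A * bt l) else 0) := by
        rw [mul_sum]
        refine sum_congr rfl fun i hi => ?_
        rw [mul_sum]
        refine sum_congr rfl fun e he => ?_
        rw [mul_sum]
        refine sum_congr rfl fun e' he' => ?_
        split_ifs with hk
        · by_cases hne : A * bt l = 0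
          · rw [hne, zero_mul]
            by_contra hcon
            obtain ⟨u1, v1, H, -, h4⟩ := hpat i hi e he e' he' hcon
            have hl' : hl e' - hl e = l := congrArg Prod.snd hk
            rw [hl', hne, zero_mul] at h4
            exact hcon (le_antisymm h4 (hE i hi e he e' he').1)
          · rw [mul_div_cancel₀ _ hne]
        · rw [mul_zero]
      rw [e2]
      refine mul_le_mul_of_nonneg_left ?_ (mul_nonneg hA (hbt l))
      refine hX.trans (le_of_eq ?_)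
      rw [mul_assoc]
      congr 2
    · intro i hi e he e' he'
      have hE0 := (hE i hi e he e' he').1
      refine ⟨?_, fun hne => ?_⟩
      · show 0 ≤ (if k i e e' = (t, l) then E i e e' / (A * bt l) else 0)
        split_ifs with hk
        · exact div_nonneg hE0 (mul_nonneg hA (hbt l))
        · exact le_rfl
      · have hk : k i e e' = (t, l) := by
          by_contra hcon
          exact hne (if_neg hcon)
        have hne' : (if k i e e' = (t, l) then E i e e' / (A * bt l) else 0) ≠ 0 := hne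
        rw [if_pos hk] at hne'
        have hEne : E i e e' ≠ 0 := fun h0 => hne' (by rw [h0, zero_div])
        have hAne : A * bt l ≠ 0 := fun h0 => hne' (by rw [h0, div_zero])
        have hApos : 0 < A * bt l := lt_of_le_of_ne (mul_nonneg hA (hbt l)) (Ne.symm hAne)
        have hp : pat i e e' = t := congrArg Prod.fst hk
        have hl' : hl e' - hl e = l := congrArg Prod.snd hk
        obtain ⟨u1, v1, H, h3, h4⟩ := hpat i hi e he e' he' hEne
        rw [hp] at h3 h4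
        rw [hl'] at h4
        refine ⟨((hE i hi e he e' he').2 hEne).1, hl', u1, v1, H, h3, ?_⟩
        show (if k i e e' = (t, l) then E i e e' / (A * bt l) else 0) ≤ _
        rw [if_pos hk, div_le_iff₀ hApos]
        linarith
  have hw : ∀ t : ℕ × ℕ, 0 ≤ ((t.1 : ℝ) * t.2) ^ (-(2 / 5) : ℝ) := fun t =>
    Real.rpow_nonneg (by positivity) _
  -- the sum over the patterns
  have hpats : ∑ t ∈ T, ((t.1 : ℝ) * t.2) ^ (-(2 / 5) : ℝ) * ∑ e ∈ S.filter (P t), Fm e ≤
      Real.exp 1 * ∑ e ∈ S, Fm e := by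
    have e1 : ∑ t ∈ T, ((t.1 : ℝ) * t.2) ^ (-(2 / 5) : ℝ) * ∑ e ∈ S.filter (P t), Fm e =
        ∑ e ∈ S, (∑ t ∈ T.filter (fun t => P t e), ((t.1 : ℝ) * t.2) ^ (-(2 / 5) : ℝ)) * Fm e := by
      simp only [sum_filter, mul_sum, sum_mul]
      rw [sum_comm]
      refine sum_congr rfl fun e _ => sum_congr rfl fun t _ => ?_
      split_ifs
      · rfl
      · rw [mul_zero, zero_mul]
    rw [e1, mul_sum]
    refine sum_le_sum fun e he => mul_le_mul_of_nonneg_right ?_ (hF.mass e he)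
    refine pat_sumX (fun p hp => Dvx_prime hp) (hF.dev e he) _ fun t ht => ?_
    obtain ⟨ht1, ht2⟩ := mem_filter.1 ht
    exact ⟨(hTp t ht1).2.1.ne', (hTp t ht1).2.2.ne', ht2⟩
  calc ∑ t ∈ T, ∑ l ∈ L,
        ∑ i ∈ I, ∑ e ∈ S, ∑ e' ∈ S, (if k i e e' = (t, l) then E i e e' else 0)
      ≤ ∑ t ∈ T, ∑ l ∈ L,
        (A * bt l) * (C * (((t.1 : ℝ) * t.2) ^ (-(2 / 5) : ℝ) * ∑ e ∈ S.filter (P t), Fm e)) :=
        sum_le_sum fun t ht => sum_le_sum fun l hl' => key t ht l hl'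
    _ = (∑ l ∈ L, bt l) * (A * C * ∑ t ∈ T,
          ((t.1 : ℝ) * t.2) ^ (-(2 / 5) : ℝ) * ∑ e ∈ S.filter (P t), Fm e) := by
        rw [sum_mul, sum_comm]
        refine sum_congr rfl fun l _ => ?_
        rw [mul_sum, mul_sum]
        refine sum_congr rfl fun t _ => ?_
        ring
    _ ≤ B * (A * C * (Real.exp 1 * ∑ e ∈ S, Fm e)) := by
        refine mul_le_mul (hB L) (mul_le_mul_of_nonneg_left hpats (mul_nonneg hA hC)) ?_
          ((sum_nonneg fun l _ => hbt l).trans (hB L))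
        refine mul_nonneg (mul_nonneg hA hC) (sum_nonneg fun t _ => mul_nonneg (hw t) (hm0 t))
    _ = C * Real.exp 1 * A * B * ∑ e ∈ S, Fm e := by ring

/-- **the two exponents together** -/
theorem X2_of_X2t {c1 c C C' : ℝ} (h1 : 0 ≤ c1) (hc : 0 ≤ c) (_hC : 0 ≤ C) (_hC' : 0 ≤ C')
    (h : X2t c1 c (1 / 2) C) (h' : X2t c1 c (9 / 20) C') : X2 c1 c (C + C') := by
  classical
  intro g x hx hz β S nu hl cc Fm hF A B bt hA hbt hB I E hI hE
  let Q : ℕ → β → β → ℕ × ℕ × ℕ × ℕ × ℕ → Prop := fun i e e' t =>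
    PairX g x i (nu e) (nu e') t.1 t.2.1 t.2.2.1 t.2.2.2.1 t.2.2.2.2 ∧
      E i e e' ≤ A * bt (hl e' - hl e) *
        (bdX g c1 c x i (1 / 2) (cc e) (cc e') (nu e) (nu e') (Fm e) (Fm e')
          t.1 t.2.1 t.2.2.1 t.2.2.2.1 +
        bdX g c1 c x i (9 / 20) (cc e) (cc e') (nu e) (nu e') (Fm e) (Fm e')
          t.1 t.2.1 t.2.2.1 t.2.2.2.1)
  let w : ℕ → β → β → ℕ × ℕ × ℕ × ℕ × ℕ := fun i e e' => Classical.epsilon (Q i e e')
  have hw : ∀ i ∈ I, ∀ e ∈ S, ∀ e' ∈ S, E i e e' ≠ 0 → Q i e e' (w i e e') := by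
    intro i hi e he e' he' hne
    obtain ⟨-, h2⟩ := hE i hi e he e' he'
    obtain ⟨-, u1, u2, v1, v2, H, h3, h4⟩ := h2 hne
    exact Classical.epsilon_spec (p := Q i e e') ⟨(u1, u2, v1, v2, H), h3, h4⟩
  let t1 : ℕ → β → β → ℝ := fun i e e' => A * bt (hl e' - hl e) *
    bdX g c1 c x i (1 / 2) (cc e) (cc e') (nu e) (nu e') (Fm e) (Fm e')
      (w i e e').1 (w i e e').2.1 (w i e e').2.2.1 (w i e e').2.2.2.1
  have ht1 : ∀ i, ∀ e ∈ S, ∀ e' ∈ S, 0 ≤ t1 i e e' := fun i e he e' he' =>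
    mul_nonneg (mul_nonneg hA (hbt _))
      (bdX_nonneg h1 hc _ _ _ _ _ _ _ (hF.mass e he) (hF.mass e' he') _ _ _ _)
  have hs1 := h g x hx hz S nu hl cc Fm hF A B bt hA hbt hB I
    (fun i e e' => min (E i e e') (t1 i e e')) hI fun i hi e he e' he' => by
      have hE0 := (hE i hi e he e' he').1
      refine ⟨le_min hE0 (ht1 i e he e' he'), fun hne => ?_⟩
      have hEne : E i e e' ≠ 0 := fun h0 => hne (by
        show min (E i e e') (t1 i e e') = 0
        rw [h0]; exact min_eq_left (ht1 i e he e' he'))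
      have hq := hw i hi e he e' he' hEne
      exact ⟨((hE i hi e he e' he').2 hEne).1, _, _, _, _, _, hq.1, min_le_right _ _⟩
  have hs2 := h' g x hx hz S nu hl cc Fm hF A B bt hA hbt hB I
    (fun i e e' => E i e e' - min (E i e e') (t1 i e e')) hI fun i hi e he e' he' => by
      have hE0 := (hE i hi e he e' he').1
      refine ⟨sub_nonneg.2 (min_le_left _ _), fun hne => ?_⟩
      have hEne : E i e e' ≠ 0 := fun h0 => hne (by
        show E i e e' - min (E i e e') (t1 i e e') = 0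
        rw [h0, min_eq_left (ht1 i e he e' he'), sub_zero])
      have hq := hw i hi e he e' he' hEne
      refine ⟨((hE i hi e he e' he').2 hEne).1, _, _, _, _, _, hq.1, ?_⟩
      show E i e e' - min (E i e e') (t1 i e e') ≤ _
      have hq2 := hq.2
      rw [mul_add] at hq2
      rcases le_total (E i e e') (t1 i e e') with h5 | h5
      · rw [min_eq_left h5, sub_self]
        exact mul_nonneg (mul_nonneg hA (hbt _))
          (bdX_nonneg h1 hc _ _ _ _ _ _ _ (hF.mass e he) (hF.mass e' he') _ _ _ _)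
      · rw [min_eq_right h5]
        have h6 : t1 i e e' = A * bt (hl e' - hl e) *
          bdX g c1 c x i (1 / 2) (cc e) (cc e') (nu e) (nu e') (Fm e) (Fm e')
            (w i e e').1 (w i e e').2.1 (w i e e').2.2.1 (w i e e').2.2.2.1 := rfl
        rw [h6]
        linarith
  have hsum : ∑ i ∈ I, ∑ e ∈ S, ∑ e' ∈ S, E i e e' =
      ∑ i ∈ I, ∑ e ∈ S, ∑ e' ∈ S, min (E i e e') (t1 i e e') +
        ∑ i ∈ I, ∑ e ∈ S, ∑ e' ∈ S, (E i e e' - min (E i e e') (t1 i e e')) := by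
    simp only [← sum_add_distrib]
    refine sum_congr rfl fun i _ => sum_congr rfl fun e _ => sum_congr rfl fun e' _ => ?_
    ring
  rw [hsum]
  calc _ ≤ C * A * B * ∑ e ∈ S, Fm e + C' * A * B * ∑ e ∈ S, Fm e := add_le_add hs1 hs2
    _ = (C + C') * A * B * ∑ e ∈ S, Fm e := by ring

end Vale.P028.SK
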