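import Vale.Agent.P028.MathlibUsed
import Vale.Agent.P028.H383.TS
import Vale.Agent.P028.R367.LemH
attribute [-instance] ProperSMul.toContinuousSMul IsTopologicalTorsor.toContinuousSMul IdemSemiring.toCanonicallyOrderedAdd IdemSemiring.toMulLeftMono IdemSemiring.toMulRightMono AddQuantale.instAddLeftMono AddQuantale.instAddRightMono Quantale.instMulLeftMono Quantale.instMulRightMono FiniteDimensional.rclike_to_real IsScalarTower.complexToReal FiniteDimensional.complexToReal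

/-!
# The levels of the rigid unstructured pairs (class TS)

Radii, complexities and the fall of the complexity between two levels with a later alignment.
-/

namespace Vale.P028.SK

open Finset CF RN

/-- transport of a fraction between two near points: both are structured -/
theorem frS_transport {H D α β : ℝ} {u v : ℕ} {n A : ℤ} {B : ℕ} (hH : 4 ≤ H) (hD : 0 < D)
    (hu : 0 < u) (hv : 0 < v) (huH : (u : ℝ) ≤ H ^ 2) (hB : 0 < B) (hBH : (B : ℝ) ≤ H ^ 5)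
    (h1 : |α - A / B| * v ≤ H ^ 5 * D) (h2 : |β * u - α * v - n| < 2 * D) :
    FrS H D β u ∧ FrS H D α v := by
  have hH0 : 0 < H := by linarith
  have hBr : (0 : ℝ) < B := by exact_mod_cast hB
  have hur : (0 : ℝ) < u := by exact_mod_cast hu
  have hvr : (0 : ℝ) < v := by exact_mod_cast hv
  have h57 : H ^ 5 ≤ H ^ 7 := pow_le_pow_right₀ (by linarith) (by norm_num)
  constructor
  · refine ⟨B * u, n * B + A * v, Nat.mul_pos hB hu, ?_, ?_⟩
    · push_cast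
      calc (B : ℝ) * u ≤ H ^ 5 * H ^ 2 := mul_le_mul hBH huH hur.le (by positivity)
        _ = H ^ 7 := by ring
    · have e : |β - ((n * B + A * v : ℤ) : ℝ) / ((B * u : ℕ) : ℝ)| * u =
          |(β * u - α * v - n) + (α - A / B) * v| := by
        rw [← abs_of_pos hur, ← abs_mul, abs_of_pos hur]
        congr 1
        push_cast
        field_simp
        ring
      rw [e]
      refine (abs_add_le _ _).trans ?_
      rw [abs_mul, abs_of_pos hvr]
      have h3 : 2 * D + H ^ 5 * D ≤ D * H ^ 7 := by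
        have h4 : (16 : ℝ) ≤ H ^ 2 := by nlinarith
        have h5 : (1 : ℝ) ≤ H ^ 5 := one_le_pow₀ (by linarith)
        have h6 : H ^ 7 = H ^ 5 * H ^ 2 := by ring
        rw [h6]
        nlinarith [mul_pos hD (by positivity : (0 : ℝ) < H ^ 5),
          mul_le_mul_of_nonneg_left h4 (by positivity : (0 : ℝ) ≤ D * H ^ 5),
          mul_le_mul_of_nonneg_left h5 hD.le]
      linarith
  · refine ⟨B, A, hB, hBH.trans h57, h1.trans ?_⟩
    rw [mul_comm]
    exact mul_le_mul_of_nonneg_left h57 hD.le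

variable {g : Cfg}

theorem eta_pos' : 0 < eta g := by
  unfold eta
  have := g.K.P.c0_pos
  positivity

theorem eta_le' (h : g.K.P.c0 ≤ 1 / 24) : eta g ≤ 1 / 336 := by
  unfold eta
  linarith

/-- the basic facts on a triple of the class TS -/
structure TSD (g : Cfg) (j q r : ℕ) : Prop where
  D0 : 0 < Dl g q r
  DJ : Dl g q r ≤ 1 / g.Js
  lo : 1 / JJ g j ≤ Dl g q r
  hi : Dl g q r < 1 / JJ g (j + 1)
  H4 : 4 ≤ Dl g q r ^ (-eta g)
  u : cofac q r = M g j r * rcof (z g j) (N g) (kc g q) q r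
  v : cofac r q = M g j q * rcof (z g j) (N g) (kc g q) r q
  u0 : 0 < rcof (z g j) (N g) (kc g q) q r
  v0 : 0 < rcof (z g j) (N g) (kc g q) r q
  uH : ((rcof (z g j) (N g) (kc g q) q r : ℕ) : ℝ) ≤ (Dl g q r ^ (-eta g)) ^ 2
  vH : ((rcof (z g j) (N g) (kc g q) r q : ℕ) : ℝ) ≤ (Dl g q r ^ (-eta g)) ^ 2
  Dq : (rcof (z g j) (N g) (kc g q) r q : ℝ) * PA.rho (dat g) j q = Dl g q r
  Dr : (rcof (z g j) (N g) (kc g q) q r : ℝ) * PA.rho (dat g) j r = Dl g q r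

theorem TSj.data (hN : NumOK g.K g.Js) (hX : g.Js ≤ g.X) (hV : g.V ⊆ Icc 1 (N g)) {j q r : ℕ}
    {n : ℤ} (hq : q ∈ g.V) (hr : r ∈ g.V) (h : TSj g j q r n) : TSD g j q r := by
  have hX1 : 1 ≤ g.X := by linarith [hN.js.1]
  have hz : zs g ≤ z g j := zs_le_z hN.js hX j
  have hq1 := mem_Icc.1 (hV hq)
  have hr1 := mem_Icc.1 (hV hr)
  have hJ0 := Js_pos hN
  obtain ⟨h1, h2, -, h4, h5⟩ := h
  have hD0 : 0 < Dl g q r := Dl_pos g hq1.1 hr1.1
  have hDJ := lv_lt hN hX h1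
  have hinv : g.Js ≤ (Dl g q r)⁻¹ := by
    rw [le_inv_comm₀ hJ0 hD0, ← one_div]
    exact hDJ.le
  have hH : 4 ≤ Dl g q r ^ (-eta g) := by
    rw [Real.rpow_neg hD0.le, ← Real.inv_rpow hD0.le]
    exact hN.four _ hinv
  obtain ⟨e1, e2, e3, e4, e5⟩ := clean_cofac hV hz hq hr h2
  obtain ⟨d1, d2⟩ := Dl_eq (g := g) hX1 hq1.1 hr1.1
  refine ⟨hD0, hDJ.le, h1.1, h1.2, hH, e1, e2, e4, e5, h5.1, h5.2, ?_, ?_⟩
  · rw [← d1, e2]
    change _ * ((M g j q : ℝ) * ψ g q) = _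
    push_cast
    ring
  · rw [← d2, e1]
    change _ * ((M g j r : ℝ) * ψ g r) = _
    push_cast
    ring

/-- the radius of the new side -/
theorem TSD.rho_q {j q r : ℕ} (h : TSD g j q r) : PA.rho (dat g) j q ≤ Dl g q r ∧
    Dl g q r ≤ PA.rho (dat g) j q * (Dl g q r ^ (-eta g)) ^ 2 := by
  have h1 := h.Dq
  have h2 : (1 : ℝ) ≤ rcof (z g j) (N g) (kc g q) r q := by exact_mod_cast h.v0
  have h3 : 0 < PA.rho (dat g) j q := PA.rho_pos _ _ _
  constructor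
  · nlinarith
  · nlinarith [mul_le_mul_of_nonneg_right h.vH h3.le]

theorem TSD.rho_r {j q r : ℕ} (h : TSD g j q r) : PA.rho (dat g) j r ≤ Dl g q r ∧
    Dl g q r ≤ PA.rho (dat g) j r * (Dl g q r ^ (-eta g)) ^ 2 := by
  have h1 := h.Dr
  have h2 : (1 : ℝ) ≤ rcof (z g j) (N g) (kc g q) q r := by exact_mod_cast h.u0
  have h3 : 0 < PA.rho (dat g) j r := PA.rho_pos _ _ _
  constructor
  · nlinarith
  · nlinarith [mul_le_mul_of_nonneg_right h.uH h3.le]

/-- `D^{1 + 2 η} ≤ ρ` and hence `J_j^{-(1 + 2 η)} ≤ ρ` -/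
theorem rho_ge_of {D ρ η J : ℝ} (hD : 0 < D) (hη : 0 < η) (hJ : 0 < J) (hDJ : 1 / J ≤ D)
    (h : D ≤ ρ * (D ^ (-η)) ^ 2) : J ^ (-(1 + 2 * η)) ≤ ρ := by
  have h1 : D ^ (1 + 2 * η) ≤ ρ := by
    have e : (D ^ (-η)) ^ 2 = (D ^ (2 * η))⁻¹ := by
      rw [← Real.rpow_natCast, ← Real.rpow_mul hD.le, ← Real.rpow_neg hD.le]
      congr 1
      push_cast
      ring
    rw [e, ← div_eq_mul_inv, le_div_iff₀ (by positivity)] at h
    calc D ^ (1 + 2 * η) = D * D ^ (2 * η) := by rw [Real.rpow_add hD, Real.rpow_one]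
      _ ≤ ρ := h
  refine le_trans ?_ h1
  rw [Real.rpow_neg hJ.le, ← Real.inv_rpow hJ.le, ← one_div]
  exact Real.rpow_le_rpow (by positivity) hDJ (by linarith)

/-- **(B1)** the radius at a level -/
theorem TSD.lev {j q r : ℕ} (h : TSD g j q r) :
    JJ g j ^ (-(1 + 2 * eta g)) ≤ PA.rho (dat g) j q ∧
      PA.rho (dat g) j q < 1 / JJ g (j + 1) :=
  ⟨rho_ge_of h.D0 eta_pos' (JJ_pos g j) h.lo h.rho_q.2, lt_of_le_of_lt h.rho_q.1 h.hi⟩

theorem TSD.lev_r {j q r : ℕ} (h : TSD g j q r) :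
    JJ g j ^ (-(1 + 2 * eta g)) ≤ PA.rho (dat g) j r ∧
      PA.rho (dat g) j r < 1 / JJ g (j + 1) :=
  ⟨rho_ge_of h.D0 eta_pos' (JJ_pos g j) h.lo h.rho_r.2, lt_of_le_of_lt h.rho_r.1 h.hi⟩

/-- **(B0)** all the complexities of both sides are large -/
theorem TSj.K_gt (hN : NumOK g.K g.Js) (hX : g.Js ≤ g.X) (hV : g.V ⊆ Icc 1 (N g)) {j q r : ℕ}
    {n : ℤ} (hq : q ∈ g.V) (hr : r ∈ g.V) (hn : n ∈ Sh g q r) (h : TSj g j q r n) (F : ℚ) :
    (Dl g q r ^ (-eta g)) ^ 5 < CF.KK g j q F ∧ (Dl g q r ^ (-eta g)) ^ 5 < CF.KK g j r F := by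
  have hX1 : 1 ≤ g.X := by linarith [hN.js.1]
  have hz : zs g ≤ z g j := zs_le_z hN.js hX j
  have hd := TSj.data hN hX hV hq hr h
  obtain ⟨h1, h2, -, h4, h5⟩ := h
  set H := Dl g q r ^ (-eta g) with hH
  have hH4 := hd.H4
  rw [← hH] at hH4
  have hnear := mem_Sh hn
  have hMr : M g j r = od (z g j) (N g) (kc g q) r := M_eq_od hV hz hq hr h2
  set u := rcof (z g j) (N g) (kc g q) q r with hu
  set v := rcof (z g j) (N g) (kc g q) r q with hv
  have hnear' : |((M g j r : ℝ) * g.γ) * u - ((M g j q : ℝ) * g.γ) * v - n| <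
      2 * Dl g q r := by
    have e : ((M g j r : ℝ) * g.γ) * u - ((M g j q : ℝ) * g.γ) * v - n =
        -((n : ℝ) - ((cofac q r : ℝ) - cofac r q) * g.γ) := by
      rw [hd.u, hd.v]
      push_cast
      ring
    rw [e, abs_neg]
    exact hnear
  have hψq := ψ_pos g q
  have hψr := ψ_pos g r
  have hstr : ∀ (P1 : FrS H (Dl g q r) ((M g j r : ℝ) * g.γ) u)
      (P2 : FrS H (Dl g q r) ((M g j q : ℝ) * g.γ) v), False := by
    intro P1 P2
    apply h4
    have eu : cofac q r / M g j r = u := by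
      rw [hd.u]
      exact Nat.mul_div_cancel_left _ (M_pos g j r)
    have ev : cofac r q / M g j q = v := by
      rw [hd.v]
      exact Nat.mul_div_cancel_left _ (M_pos g j q)
    refine ⟨?_, ?_⟩
    · rw [← hMr, eu]
      exact P1
    · change FrS H (Dl g q r) ((M g j q : ℝ) * g.γ) ((cofac r q / M g j q : ℕ) : ℝ)
      rw [ev]
      exact P2
  constructor
  · by_contra hcon
    push Not at hcon
    have hK : CF.KK g j q F = max ((((M g j q : ℕ) : ℚ) * F).den : ℝ)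
      (|g.γ - (F : ℝ)| / ψ g q) := rfl
    rw [hK, max_le_iff, div_le_iff₀ hψq] at hcon
    set x : ℚ := ((M g j q : ℕ) : ℚ) * F with hx
    have hxr : (x : ℝ) = (M g j q : ℝ) * F := by
      rw [hx]; push_cast; ring
    have hxd : (x : ℝ) = x.num / x.den := by exact_mod_cast (Rat.num_div_den x).symm
    have a1 : |(M g j q : ℝ) * g.γ - (x.num : ℝ) / (x.den : ℕ)| * v ≤ H ^ 5 * Dl g q r := by
      have e : (M g j q : ℝ) * g.γ - (x.num : ℝ) / (x.den : ℕ) = M g j q * (g.γ - F) := by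
        rw [← hxd, hxr]
        ring
      rw [e, abs_mul, abs_of_nonneg (Nat.cast_nonneg _)]
      have e2 := hd.Dq
      rw [← hv] at e2
      have e3 : PA.rho (dat g) j q = (M g j q : ℝ) * ψ g q := rfl
      rw [e3] at e2
      calc (M g j q : ℝ) * |g.γ - F| * v ≤ M g j q * (H ^ 5 * ψ g q) * v := by
            have := hcon.2
            gcongr
        _ = H ^ 5 * ((v : ℝ) * (M g j q * ψ g q)) := by ring
        _ = H ^ 5 * Dl g q r := by rw [e2]
    obtain ⟨P1, P2⟩ := frS_transport (n := n) hH4 hd.D0 hd.u0 hd.v0 hd.uH x.den_pos hcon.1 a1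
      hnear'
    exact hstr P1 P2
  · by_contra hcon
    push Not at hcon
    have hK : CF.KK g j r F = max ((((M g j r : ℕ) : ℚ) * F).den : ℝ)
      (|g.γ - (F : ℝ)| / ψ g r) := rfl
    rw [hK, max_le_iff, div_le_iff₀ hψr] at hcon
    set x : ℚ := ((M g j r : ℕ) : ℚ) * F with hx
    have hxr : (x : ℝ) = (M g j r : ℝ) * F := by
      rw [hx]; push_cast; ring
    have hxd : (x : ℝ) = x.num / x.den := by exact_mod_cast (Rat.num_div_den x).symm
    have a1 : |(M g j r : ℝ) * g.γ - (x.num : ℝ) / (x.den : ℕ)| * u ≤ H ^ 5 * Dl g q r := by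
      have e : (M g j r : ℝ) * g.γ - (x.num : ℝ) / (x.den : ℕ) = M g j r * (g.γ - F) := by
        rw [← hxd, hxr]
        ring
      rw [e, abs_mul, abs_of_nonneg (Nat.cast_nonneg _)]
      have e2 := hd.Dr
      rw [← hu] at e2
      have e3 : PA.rho (dat g) j r = (M g j r : ℝ) * ψ g r := rfl
      rw [e3] at e2
      calc (M g j r : ℝ) * |g.γ - F| * u ≤ M g j r * (H ^ 5 * ψ g r) * u := by
            have := hcon.2
            gcongr
        _ = H ^ 5 * ((u : ℝ) * (M g j r * ψ g r)) := by ring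
        _ = H ^ 5 * Dl g q r := by rw [e2]
    have hnear'' : |((M g j q : ℝ) * g.γ) * v - ((M g j r : ℝ) * g.γ) * u - ((-n : ℤ) : ℝ)| <
        2 * Dl g q r := by
      rw [← abs_neg]
      refine lt_of_eq_of_lt ?_ hnear'
      congr 1
      push_cast
      ring
    obtain ⟨P2, P1⟩ := frS_transport (n := -n) hH4 hd.D0 hd.v0 hd.u0 hd.vH x.den_pos hcon.1 a1
      hnear''
    exact hstr P1 P2

/-! ### Two levels of one modulus -/

theorem lt_JJ_of_lt_nst (hJ : JsOK g.K g.Js) (hX : g.Js ≤ g.X) {j : ℕ} (hj : 1 ≤ j)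
    (h : j < nst g) : g.Js < JJ g (j + 1) := by
  have h1 : j ∉ {j : ℕ | 1 ≤ j ∧ JJ g (j + 1) = max 1 g.Js} := Nat.notMem_of_lt_sInf h
  have h2 := Js_le_JJ hJ hX (j + 1)
  refine lt_of_le_of_ne h2 fun h3 => h1 ⟨hj, ?_⟩
  rw [max_Js hJ]
  exact h3.symm

theorem JJ_two (hJ : JsOK g.K g.Js) (hX : g.Js ≤ g.X) {j : ℕ} (h : j + 2 ≤ nst g) :
    JJ g (j + 2) = (Real.log (JJ g (j + 1))) ^ g.K.C1 := by
  have h1 := lt_JJ_of_lt_nst hJ hX (show 1 ≤ j + 1 by omega) (show j + 1 < nst g by omega)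
  have h2 := JJ_succ hJ hX (show 1 ≤ j + 1 by omega)
  rw [show j + 1 + 1 = j + 2 by ring] at h1 h2
  rw [h2] at h1 ⊢
  rcases le_total g.Js ((Real.log (JJ g (j + 1))) ^ g.K.C1) with h3 | h3
  · rw [max_eq_right h3]
  · rw [max_eq_left h3] at h1
    exact absurd h1 (lt_irrefl _)

/-- **(E2)** between two non adjacent levels the deficit of `q` changes -/
theorem TSD.ne_M (hJ : JsOK g.K g.Js) (hX : g.Js ≤ g.X) (hc0 : g.K.P.c0 ≤ 1 / 24)
    {j j' q r r' : ℕ} (h : TSD g j q r) (h' : TSD g j' q r') (hjj : j + 2 ≤ j')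
    (hj' : j' ≤ nst g) : PA.rho (dat g) j q < PA.rho (dat g) j' q ∧ M g j q ≠ M g j' q := by
  have h1 := h.lev.2
  have h2 := h'.lev.1
  have hη := eta_le' (g := g) hc0
  have hη0 := eta_pos' (g := g)
  have h3 := JJ_two hJ hX (show j + 2 ≤ nst g by omega)
  have hJ1 : g.Js ≤ JJ g (j + 1) := Js_le_JJ hJ hX _
  have h4 := hJ.2 _ hJ1
  rw [← h3] at h4
  have hone : 1 ≤ JJ g (j + 1) := one_le_JJ g _
  have hlt : PA.rho (dat g) j q < PA.rho (dat g) j' q := by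
    refine lt_of_lt_of_le h1 (le_trans ?_ h2)
    rw [one_div, Real.rpow_neg (JJ_pos g _).le]
    refine inv_anti₀ (by have := JJ_pos g j'; positivity) ?_
    calc JJ g j' ^ (1 + 2 * eta g) ≤ JJ g (j + 2) ^ (1 + 2 * eta g) :=
          Real.rpow_le_rpow (JJ_pos g _).le (JJ_anti g hjj) (by linarith)
      _ ≤ (Real.sqrt (JJ g (j + 1))) ^ (1 + 2 * eta g) :=
          Real.rpow_le_rpow (JJ_pos g _).le h4 (by linarith)
      _ = JJ g (j + 1) ^ ((1 / 2 : ℝ) * (1 + 2 * eta g)) := by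
          rw [Real.sqrt_eq_rpow, ← Real.rpow_mul (by linarith)]
      _ ≤ JJ g (j + 1) ^ (1 : ℝ) :=
          Real.rpow_le_rpow_of_exponent_le hone (by linarith)
      _ = JJ g (j + 1) := Real.rpow_one _
  refine ⟨hlt, fun h5 => ?_⟩
  have e1 : PA.rho (dat g) j q = (M g j q : ℝ) * ψ g q := rfl
  have e2 : PA.rho (dat g) j' q = (M g j' q : ℝ) * ψ g q := rfl
  rw [e1, e2, h5] at hlt
  exact lt_irrefl _ hlt

/-! ### A later alignment -/

/-- the Archimedean parts of the complexities of an aligned pair -/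
theorem arch_le (hX : 1 ≤ g.X) {q r : ℕ} {n : ℤ} {F G : ℚ} (hq : 0 < q) (hr : 0 < r)
    (hn : n ∈ Sh g q r)
    (hal : (n : ℚ) + F * ((cofac r q : ℤ) : ℚ) - G * ((cofac q r : ℤ) : ℚ) = 0) :
    |g.γ - (F : ℝ)| / ψ g q ≤ |g.γ - (G : ℝ)| / ψ g r + 2 := by
  have hu : (0 : ℝ) < cofac r q := by exact_mod_cast cofac_pos q hr
  have hu' : (0 : ℝ) < cofac q r := by exact_mod_cast cofac_pos r hq
  obtain ⟨hDq, hDr⟩ := Dl_eq (g := g) hX hq hr
  have hw1 := window_al hn hal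
  have hψq := ψ_pos g q
  have hψr := ψ_pos g r
  rw [div_le_iff₀ hψq]
  have h4 : |g.γ - (F : ℝ)| * cofac r q ≤ 2 * Dl g q r + |g.γ - (G : ℝ)| * cofac q r := by
    have h5 : |((F : ℝ) - g.γ) * cofac r q| ≤
        |((G : ℝ) - g.γ) * cofac q r - ((F : ℝ) - g.γ) * cofac r q| +
          |((G : ℝ) - g.γ) * cofac q r| := by
      have h6 := abs_sub (((G : ℝ) - g.γ) * cofac q r)
        (((G : ℝ) - g.γ) * cofac q r - ((F : ℝ) - g.γ) * cofac r q)
      rw [sub_sub_cancel] at h6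
      linarith
    rw [abs_mul, abs_mul, abs_of_pos hu, abs_of_pos hu', abs_sub_comm (G : ℝ),
      abs_sub_comm (F : ℝ)] at h5
    linarith
  have h5 : |g.γ - (G : ℝ)| / ψ g r * ψ g q * cofac r q = |g.γ - (G : ℝ)| * cofac q r := by
    rw [mul_assoc, mul_comm (ψ g q), hDq, ← hDr]
    field_simp
  have h6 : |g.γ - (F : ℝ)| * cofac r q ≤
      (|g.γ - (G : ℝ)| / ψ g r + 2) * ψ g q * cofac r q := by
    have e1 : (|g.γ - (G : ℝ)| / ψ g r + 2) * ψ g q * cofac r q =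
        |g.γ - (G : ℝ)| / ψ g r * ψ g q * cofac r q +
          2 * ((cofac r q : ℝ) * ψ g q) := by ring
    rw [e1, h5, hDq]
    linarith
  exact le_of_mul_le_mul_right h6 hu

/-- the denominator of `x` divides `k` times the denominator of `k x` -/
theorem den_dvd_mul_den {k : ℕ} (hk : 0 < k) (x : ℚ) : x.den ∣ k * ((k : ℚ) * x).den := by
  have hkq : (k : ℚ) ≠ 0 := by exact_mod_cast hk.ne'
  set y : ℚ := (k : ℚ) * x with hy
  have e : x = (y.num : ℚ) / ((k * y.den : ℕ) : ℚ) := by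
    have h1 : y = y.num / y.den := (Rat.num_div_den y).symm
    have h2 : (y.den : ℚ) ≠ 0 := by exact_mod_cast y.den_ne_zero
    push_cast
    rw [eq_div_iff (mul_ne_zero hkq h2)]
    have h3 : (y.num : ℚ) = y * y.den := by
      rw [eq_div_iff h2] at h1
      exact h1.symm
    rw [h3, hy]
    ring
  have h4 : ((y.num : ℚ) / ((k * y.den : ℕ) : ℚ)).den ∣ k * y.den := by
    have := Rat.den_dvd y.num ((k * y.den : ℕ) : ℤ)
    have h5 : (((y.num / ((k * y.den : ℕ) : ℤ) : ℚ)).den : ℤ) ∣ ((k * y.den : ℕ) : ℤ) := by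
      exact_mod_cast this
    exact_mod_cast h5
  rw [← e] at h4
  exact h4

/-- the deficits of the two sides at a deeper stage -/
theorem M_dvd_later {i j q r : ℕ} (hij : j ≤ i) (hq : 0 < q) (hr : 0 < r)
    (hu : M g j r ∣ cofac q r)
    (hkc : ∀ p ∈ PO (z g i) (N g), kc g r p = kc g q p) :
    M g i r * M g j q ∣ M g i q * cofac q r := by
  have hu0 : cofac q r ≠ 0 := (cofac_pos r hq).ne'
  rw [← Nat.factorization_le_iff_dvd
    (Nat.mul_ne_zero (M_pos g _ _).ne' (M_pos g _ _).ne')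
    (Nat.mul_ne_zero (M_pos g _ _).ne' hu0)]
  intro p
  rw [Nat.factorization_mul (M_pos g _ _).ne' (M_pos g _ _).ne',
    Nat.factorization_mul (M_pos g _ _).ne' hu0, Finsupp.add_apply, Finsupp.add_apply]
  have h1 := (Nat.factorization_le_iff_dvd (M_pos g j r).ne' hu0).2 hu p
  rw [cofac_facE hq hr] at h1 ⊢
  rw [M_fac'] at h1
  rw [M_fac', M_fac', M_fac']
  by_cases hi : p ∈ PO (z g i) (N g)
  · have hk := hkc p hi
    rw [if_pos hi, if_pos hi]
    by_cases hj : p ∈ PO (z g j) (N g)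
    · rw [if_pos hj] at h1 ⊢
      omega
    · rw [if_neg hj]
      omega
  · have hj : p ∉ PO (z g j) (N g) := fun h => hi (PO_mono (z_anti g hij) h)
    rw [if_neg hi, if_neg hi, if_neg hj]
    omega

/-- the denominator of the fraction of `q` at a later alignment -/
theorem den_later {i j q r : ℕ} {n : ℤ} {F G : ℚ} (hij : j ≤ i) (hq : 0 < q) (hr : 0 < r)
    (hu : M g j r ∣ cofac q r) {v : ℕ} (hv : cofac r q = M g j q * v) (hv0 : 0 < v)
    (hkc : ∀ p ∈ PO (z g i) (N g), kc g r p = kc g q p)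
    (hal : (n : ℚ) + F * ((cofac r q : ℤ) : ℚ) - G * ((cofac q r : ℤ) : ℚ) = 0) :
    (((M g i q : ℕ) : ℚ) * F).den ≤ v * (((M g i r : ℕ) : ℚ) * G).den := by
  obtain ⟨X, hX⟩ := M_dvd_later hij hq hr hu hkc
  have hMM : M g j q ∣ M g i q := by
    clear hkc hX hu hv
    induction i, hij using Nat.le_induction with
    | base => exact dvd_rfl
    | succ i _ ih => exact (ih).trans (M_dvd g i q)
  obtain ⟨c, hc⟩ := hMM
  have hMj : 0 < M g j q := M_pos g j q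
  have h1 : c * cofac q r = M g i r * X := by
    have h2 : M g j q * (c * cofac q r) = M g j q * (M g i r * X) := by
      calc M g j q * (c * cofac q r) = M g i q * cofac q r := by rw [hc]; ring
        _ = M g i r * M g j q * X := hX
        _ = _ := by ring
    exact Nat.eq_of_mul_eq_mul_left hMj h2
  have h1q : (c : ℚ) * (cofac q r : ℚ) = (M g i r : ℚ) * X := by exact_mod_cast h1
  have hcq : (M g i q : ℚ) = (M g j q : ℚ) * c := by exact_mod_cast hc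
  have hvq : (cofac r q : ℚ) = (M g j q : ℚ) * v := by exact_mod_cast hv
  have h3 : (v : ℚ) * (((M g i q : ℕ) : ℚ) * F) =
      (X : ℚ) * (((M g i r : ℕ) : ℚ) * G) + ((-(c : ℤ) * n : ℤ) : ℚ) := by
    push_cast at hal ⊢
    rw [hcq]
    have h4 : (n : ℚ) + F * ((M g j q : ℚ) * v) - G * (cofac q r : ℚ) = 0 := by
      rw [← hvq]
      exact hal
    linear_combination (c : ℚ) * h4 + G * h1q
  have h5 : ((v : ℚ) * (((M g i q : ℕ) : ℚ) * F)).den ∣ (((M g i r : ℕ) : ℚ) * G).den := by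
    rw [h3]
    have h6 := Rat.add_intCast_den ((X : ℚ) * (((M g i r : ℕ) : ℚ) * G)) (-(c : ℤ) * n)
    rw [h6]
    exact PA.den_mul_dvd X _
  have h7 := den_dvd_mul_den hv0 (((M g i q : ℕ) : ℚ) * F)
  exact Nat.le_of_dvd (Nat.mul_pos hv0 (Rat.den_pos _)) (h7.trans (Nat.mul_dvd_mul_left v h5))

/-- **(A)** the complexity of the old fraction of `q` at a later stage of alignment with a new
fraction of `r` -/
theorem TSD.K_later (hX : 1 ≤ g.X) (hV : g.V ⊆ Icc 1 (N g)) (hc0 : g.K.P.c0 ≤ 1 / 24)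
    {i j q r : ℕ} {n : ℤ} {F G : ℚ} (hq : q ∈ g.V) (hr : r ∈ g.V) (h : TSD g j q r)
    (hij : j ≤ i) (hn : n ∈ Sh g q r)
    (hkc : ∀ p ∈ PO (z g i) (N g), kc g r p = kc g q p)
    (hal : (n : ℚ) + F * ((cofac r q : ℤ) : ℚ) - G * ((cofac q r : ℤ) : ℚ) = 0)
    (hG : PA.IsCand g.K.P (dat g) i r G) :
    CF.KK g i q F ≤ (Dl g q r ^ (-eta g)) ^ 18 := by
  have hq1 := (mem_Icc.1 (hV hq)).1
  have hr1 := (mem_Icc.1 (hV hr)).1
  set H := Dl g q r ^ (-eta g) with hH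
  have hH4 : 4 ≤ H := h.H4
  have hH0 : 0 < H := by linarith
  have hD0 := h.D0
  -- the complexity of `r`
  have hκ : CF.KK g i r G ≤ H ^ 15 := by
    have h1 : CF.KK g i r G ≤ (PA.rho (dat g) i r) ^ (-g.K.P.c0) := hG.2
    refine h1.trans ?_
    have hρ0 : 0 < PA.rho (dat g) j r := PA.rho_pos _ _ _
    have h2 : (PA.rho (dat g) i r) ^ (-g.K.P.c0) ≤ (PA.rho (dat g) j r) ^ (-g.K.P.c0) :=
      Real.rpow_le_rpow_of_nonpos hρ0 (PA.rho_mono' hij r) (by linarith [g.K.P.c0_pos])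
    refine h2.trans ?_
    have h3 : Dl g q r / H ^ 2 ≤ PA.rho (dat g) j r := by
      rw [div_le_iff₀ (by positivity)]
      exact h.rho_r.2
    have h4 : (PA.rho (dat g) j r) ^ (-g.K.P.c0) ≤ (Dl g q r / H ^ 2) ^ (-g.K.P.c0) :=
      Real.rpow_le_rpow_of_nonpos (by positivity) h3 (by linarith [g.K.P.c0_pos])
    refine h4.trans ?_
    have e : (Dl g q r / H ^ 2) ^ (-g.K.P.c0) = H ^ 14 * (H ^ 2) ^ g.K.P.c0 := by
      rw [Real.div_rpow hD0.le (by positivity), Real.rpow_neg (by positivity : 0 ≤ H ^ 2),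
        div_inv_eq_mul]
      congr 1
      rw [hH, ← Real.rpow_natCast, ← Real.rpow_mul hD0.le]
      congr 1
      unfold eta
      push_cast
      ring
    rw [e]
    have h5 : (H ^ 2) ^ g.K.P.c0 ≤ H := by
      rw [← Real.rpow_natCast, ← Real.rpow_mul hH0.le]
      calc H ^ (((2 : ℕ) : ℝ) * g.K.P.c0) ≤ H ^ (1 : ℝ) := by
            refine Real.rpow_le_rpow_of_exponent_le (by linarith) ?_
            push_cast
            linarith
        _ = H := Real.rpow_one H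
    calc H ^ 14 * (H ^ 2) ^ g.K.P.c0 ≤ H ^ 14 * H := by gcongr
      _ = H ^ 15 := by ring
  have hu : M g j r ∣ cofac q r := ⟨_, h.u⟩
  have hden := den_later hij hq1 hr1 hu h.v h.v0 hkc hal
  have harch := arch_le hX hq1 hr1 hn hal
  have e1 : CF.KK g i q F = max ((((M g i q : ℕ) : ℚ) * F).den : ℝ)
      (|g.γ - (F : ℝ)| / ψ g q) := rfl
  have e2 : CF.KK g i r G = max ((((M g i r : ℕ) : ℚ) * G).den : ℝ)
      (|g.γ - (G : ℝ)| / ψ g r) := rfl
  rw [e2] at hκ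
  have hκ1 := (le_max_left _ _).trans hκ
  have hκ2 := (le_max_right _ _).trans hκ
  have h1H : (1 : ℝ) ≤ H ^ 15 := one_le_pow₀ (by linarith)
  rw [e1]
  refine max_le ?_ ?_
  · calc ((((M g i q : ℕ) : ℚ) * F).den : ℝ)
        ≤ (rcof (z g j) (N g) (kc g q) r q : ℝ) * ((((M g i r : ℕ) : ℚ) * G).den : ℝ) := by
          exact_mod_cast hden
      _ ≤ H ^ 2 * H ^ 15 := mul_le_mul h.vH hκ1 (Nat.cast_nonneg _) (by positivity)
      _ = H ^ 17 := by ring
      _ ≤ H ^ 18 := pow_le_pow_right₀ (by linarith) (by norm_num)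
  · calc |g.γ - (F : ℝ)| / ψ g q ≤ H ^ 15 + 2 := by linarith
      _ ≤ H ^ 15 * 4 := by linarith
      _ ≤ H ^ 15 * H := by gcongr
      _ = H ^ 16 := by ring
      _ ≤ H ^ 18 := pow_le_pow_right₀ (by linarith) (by norm_num)

/-! ### The fall of the complexity between two levels with a later alignment -/

/-- the numerical conditions -/
structure NumTS (K : Cst) (Js : ℝ) : Prop where
  c0 : K.P.c0 ≤ 1 / 24
  rho0 : (2 : ℝ) ^ 21 ≤ K.P.ρ0 ^ (-K.P.c0)
  big : ∀ t, Js ≤ t → (2 : ℝ) ^ 20 ≤ t ^ (5 * (K.P.c0 / 14))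
  lz : ∀ t, Js ≤ t → K.C2 * Real.log t ≤ (((Real.log t) ^ K.C1) ^ (5 * (K.P.c0 / 14))) ^ K.P.c4
  pw : ∀ t, Js ≤ t → ((Real.log t) ^ K.C1) ^ (18 * (K.P.c0 / 14)) ≤
    (t ^ (5 * (K.P.c0 / 14))) ^ (1 / 4 : ℝ)

/-- The complexity of the fraction of `q` has fallen between the stages `t` and `i`. -/
def Fal (g : Cfg) (t i q : ℕ) : Prop := t ≤ i ∧ ∃ F : ℚ,
  (∃ b, st g t q = some (F, b)) ∧ (∃ b, st g i q = some (F, b)) ∧
  (2 : ℝ) ^ 20 ≤ CF.KK g t q F ∧ Real.log (z g t) ≤ (CF.KK g t q F + 2) ^ g.K.P.c4 ∧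
  CF.KK g i q F ≤ (CF.KK g t q F) ^ (1 / 4 : ℝ)

theorem Fell.fal {t i q : ℕ} (h : Fell g t i q) : Fal g t i q := by
  obtain ⟨h1, F, -, h2, h3, h4, h5, h6⟩ := h
  exact ⟨h1, F, h2, h3, h4, h5, h6⟩

/-- the complexities at a level, in terms of the length of the next stage -/
theorem TSj.K_gt' (hN : NumOK g.K g.Js) (hX : g.Js ≤ g.X) (hV : g.V ⊆ Icc 1 (N g)) {j q r : ℕ}
    {n : ℤ} (hq : q ∈ g.V) (hr : r ∈ g.V) (hn : n ∈ Sh g q r) (h : TSj g j q r n) (F : ℚ) :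
    JJ g (j + 1) ^ (5 * eta g) < CF.KK g j q F ∧ JJ g (j + 1) ^ (5 * eta g) < CF.KK g j r F := by
  have hd := TSj.data hN hX hV hq hr h
  obtain ⟨h1, h2⟩ := TSj.K_gt hN hX hV hq hr hn h F
  have hJ := JJ_pos g (j + 1)
  have hle : JJ g (j + 1) ^ (5 * eta g) ≤ (Dl g q r ^ (-eta g)) ^ 5 := by
    have h3 : JJ g (j + 1) ≤ (Dl g q r)⁻¹ := by
      rw [le_inv_comm₀ hJ hd.D0, ← one_div]
      exact hd.hi.le
    calc JJ g (j + 1) ^ (5 * eta g) ≤ ((Dl g q r)⁻¹) ^ (5 * eta g) :=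
          Real.rpow_le_rpow hJ.le h3 (by have := eta_pos' (g := g); positivity)
      _ = (Dl g q r ^ (-eta g)) ^ 5 := by
          rw [← Real.rpow_natCast (Dl g q r ^ (-eta g)) 5, ← Real.rpow_mul hd.D0.le,
            Real.inv_rpow hd.D0.le, ← Real.rpow_neg hd.D0.le]
          congr 1
          push_cast
          ring
  exact ⟨lt_of_le_of_lt hle h1, lt_of_le_of_lt hle h2⟩

/-- the old fraction at a later alignment, in terms of the length of the stage -/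
theorem TSD.K_later' (hX : 1 ≤ g.X) (hV : g.V ⊆ Icc 1 (N g)) (hc0 : g.K.P.c0 ≤ 1 / 24)
    {i j q r : ℕ} {n : ℤ} {F G : ℚ} (hq : q ∈ g.V) (hr : r ∈ g.V) (h : TSD g j q r)
    (hij : j ≤ i) (hn : n ∈ Sh g q r)
    (hkc : ∀ p ∈ PO (z g i) (N g), kc g r p = kc g q p)
    (hal : (n : ℚ) + F * ((cofac r q : ℤ) : ℚ) - G * ((cofac q r : ℤ) : ℚ) = 0)
    (hG : PA.IsCand g.K.P (dat g) i r G) :
    CF.KK g i q F ≤ JJ g j ^ (18 * eta g) := by
  refine (h.K_later hX hV hc0 hq hr hij hn hkc hal hG).trans ?_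
  have hJ := JJ_pos g j
  have h3 : (Dl g q r)⁻¹ ≤ JJ g j := by
    rw [inv_le_comm₀ h.D0 hJ, ← one_div]
    exact h.lo
  calc (Dl g q r ^ (-eta g)) ^ 18 = ((Dl g q r)⁻¹) ^ (18 * eta g) := by
        rw [← Real.rpow_natCast (Dl g q r ^ (-eta g)) 18, ← Real.rpow_mul h.D0.le,
          Real.inv_rpow h.D0.le, ← Real.rpow_neg h.D0.le]
        congr 1
        push_cast
        ring
    _ ≤ JJ g j ^ (18 * eta g) :=
        Real.rpow_le_rpow (inv_nonneg.2 h.D0.le) h3 (by have := eta_pos' (g := g); positivity)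

/-- **Two non adjacent levels of `q`, one fraction `F` of `q`, a later alignment with a new
fraction at the second one**: the complexity of `F` has fallen. -/
theorem fal_of_two (hN : NumOK g.K g.Js) (hT : NumTS g.K g.Js) (hX : g.Js ≤ g.X)
    (hV : g.V ⊆ Icc 1 (N g)) {j₁ j₂ i₂ q r₁ r₂ : ℕ} {n₁ n₂ : ℤ} {F G : ℚ}
    (hq : q ∈ g.V) (hr₁ : r₁ ∈ g.V) (hr₂ : r₂ ∈ g.V) (hn₁ : n₁ ∈ Sh g q r₁)
    (hn₂ : n₂ ∈ Sh g q r₂) (h₁ : TSj g j₁ q r₁ n₁) (h₂ : TSj g j₂ q r₂ n₂)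
    (hj : 1 ≤ j₁) (hjj : j₁ + 2 ≤ j₂) (hjn : j₂ ≤ nst g) (hi : j₂ ≤ i₂)
    (hs₁ : ∃ b, st g j₁ q = some (F, b)) (hs₂ : ∃ b, st g i₂ q = some (F, b))
    (hkc : ∀ p ∈ PO (z g i₂) (N g), kc g r₂ p = kc g q p)
    (hal : (n₂ : ℚ) + F * ((cofac r₂ q : ℤ) : ℚ) - G * ((cofac q r₂ : ℤ) : ℚ) = 0)
    (hG : PA.IsCand g.K.P (dat g) i₂ r₂ G) : Fal g j₁ i₂ q := by
  have hX1 : 1 ≤ g.X := by linarith [hN.js.1]
  have hd₂ := TSj.data hN hX hV hq hr₂ h₂
  have hK1 := (TSj.K_gt' hN hX hV hq hr₁ hn₁ h₁ F).1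
  have hK2 := hd₂.K_later' hX1 hV hT.c0 hq hr₂ hi hn₂ hkc hal hG
  have hJ1 : g.Js ≤ JJ g (j₁ + 1) := Js_le_JJ hN.js hX _
  have hη0 := eta_pos' (g := g)
  have hbig := hT.big _ hJ1
  have heta : g.K.P.c0 / 14 = eta g := rfl
  rw [heta] at hbig
  refine ⟨by omega, F, hs₁, hs₂, hbig.trans hK1.le, ?_, ?_⟩
  · -- `log z ≤ (K + 2) ^ c4`
    have hJj : g.Js ≤ JJ g j₁ := Js_le_JJ hN.js hX _
    have h1 := hT.lz _ hJj
    rw [heta] at h1
    have h2 : (Real.log (JJ g j₁)) ^ g.K.C1 ≤ JJ g (j₁ + 1) := log_le_JJ hN.js hX hj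
    have hl0 : 0 ≤ Real.log (JJ g j₁) := Real.log_nonneg (one_le_JJ g _)
    refine (log_z_le (g := g) (j := j₁)).trans (h1.trans ?_)
    refine Real.rpow_le_rpow (by positivity) ?_ g.K.P.c4_pos.le
    calc ((Real.log (JJ g j₁)) ^ g.K.C1) ^ (5 * eta g) ≤ JJ g (j₁ + 1) ^ (5 * eta g) :=
          Real.rpow_le_rpow (by positivity) h2 (by positivity)
      _ ≤ CF.KK g j₁ q F + 2 := by linarith
  · -- the fall
    have h1 := hT.pw _ hJ1
    rw [heta] at h1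
    have h2 := JJ_two hN.js hX (show j₁ + 2 ≤ nst g by omega)
    rw [← h2] at h1
    calc CF.KK g i₂ q F ≤ JJ g j₂ ^ (18 * eta g) := hK2
      _ ≤ JJ g (j₁ + 2) ^ (18 * eta g) :=
          Real.rpow_le_rpow (JJ_pos g _).le (JJ_anti g hjj) (by positivity)
      _ ≤ (JJ g (j₁ + 1) ^ (5 * eta g)) ^ (1 / 4 : ℝ) := h1
      _ ≤ (CF.KK g j₁ q F) ^ (1 / 4 : ℝ) :=
          Real.rpow_le_rpow (by have := JJ_pos g (j₁ + 1); positivity) hK1.le (by norm_num)

/-- powers of logarithms are small -/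
theorem ev_log_pow (a b : ℝ) (ha : 0 < a) : ∃ T : ℝ, ∀ t, T ≤ t → (Real.log t) ^ b ≤ t ^ a := by
  have h1 : (fun t : ℝ => (Real.log t) ^ b) =o[Filter.atTop] fun t => t ^ a :=
    isLittleO_log_rpow_rpow_atTop b ha
  have h2 := h1.bound (c := 1) one_pos
  rw [Filter.eventually_atTop] at h2
  obtain ⟨J₁, h2⟩ := h2
  refine ⟨max 1 J₁, fun t ht => ?_⟩
  have h3 := h2 t ((le_max_right _ _).trans ht)
  have ht1 : 1 ≤ t := (le_max_left _ _).trans ht
  rw [one_mul, Real.norm_of_nonneg (Real.rpow_nonneg (Real.log_nonneg ht1) _),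
    Real.norm_of_nonneg (Real.rpow_nonneg (by linarith) _)] at h3
  exact h3

theorem ev_numTS : Ev NumTS := by
  refine ⟨1 / 24, by norm_num, fun c0 hc0 hc0' => ⟨1, one_pos, fun c4 hc4 _ =>
    ⟨((2 : ℝ) ^ 21) ^ (-(1 / c0)), by positivity, fun ρ0 hρ0 hρ0' =>
      ⟨2 * (14 / (5 * c0 * c4)), fun C1 hC1 => ⟨1, fun C2 hC2 => ?_⟩⟩⟩⟩⟩
  by_cases hg : GoodC c0 c4 ρ0 C1 C2
  swap
  · exact ⟨0, fun Js _ h' => absurd h' hg⟩
  obtain ⟨T, hT⟩ := ev_log_pow (5 * (c0 / 14) * (1 / 4)) (C1 * (18 * (c0 / 14))) (by positivity)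
  refine ⟨max T (max (((2 : ℝ) ^ 20) ^ (14 / (5 * c0))) (Real.exp (max 1 C2))), ?_⟩
  intro Js hJs _
  simp only [ge_iff_le, max_le_iff] at hJs
  obtain ⟨h1, h2, h3⟩ := hJs
  have hJs0 : 0 < Js := lt_of_lt_of_le (Real.exp_pos _) h3
  refine ⟨hc0', ?_, ?_, ?_, ?_⟩
  · change (2 : ℝ) ^ 21 ≤ ρ0 ^ (-c0)
    calc (2 : ℝ) ^ 21 = (((2 : ℝ) ^ 21) ^ (-(1 / c0))) ^ (-c0) := by
          rw [← Real.rpow_mul (by positivity)]
          have : -(1 / c0) * -c0 = 1 := by field_simp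
          rw [this, Real.rpow_one]
      _ ≤ ρ0 ^ (-c0) := Real.rpow_le_rpow_of_nonpos hρ0 hρ0' (by linarith)
  · intro t ht
    change (2 : ℝ) ^ 20 ≤ t ^ (5 * (c0 / 14))
    calc (2 : ℝ) ^ 20 = (((2 : ℝ) ^ 20) ^ (14 / (5 * c0))) ^ (5 * (c0 / 14)) := by
          rw [← Real.rpow_mul (by positivity)]
          have : 14 / (5 * c0) * (5 * (c0 / 14)) = 1 := by field_simp
          rw [this, Real.rpow_one]
      _ ≤ t ^ (5 * (c0 / 14)) := Real.rpow_le_rpow (by positivity) (h2.trans ht) (by positivity)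
  · intro t ht
    change C2 * Real.log t ≤ (((Real.log t) ^ C1) ^ (5 * (c0 / 14))) ^ c4
    have ht0 : 0 < t := lt_of_lt_of_le hJs0 ht
    have hlt : max 1 C2 ≤ Real.log t := by
      rw [Real.le_log_iff_exp_le ht0]
      exact h3.trans ht
    have hl1 : 1 ≤ Real.log t := (le_max_left _ _).trans hlt
    have hl2 : C2 ≤ Real.log t := (le_max_right _ _).trans hlt
    have hl0 : 0 < Real.log t := by linarith
    have e : (((Real.log t) ^ C1) ^ (5 * (c0 / 14))) ^ c4 =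
        (Real.log t) ^ (C1 * (5 * c0 * c4 / 14)) := by
      rw [← Real.rpow_mul hl0.le, ← Real.rpow_mul hl0.le]
      congr 1
      ring
    rw [e]
    have h5 : (2 : ℝ) ≤ C1 * (5 * c0 * c4 / 14) := by
      have h6 : 2 * (14 / (5 * c0 * c4)) * (5 * c0 * c4 / 14) = 2 := by field_simp
      have h7 : 0 < 5 * c0 * c4 / 14 := by positivity
      calc (2 : ℝ) = 2 * (14 / (5 * c0 * c4)) * (5 * c0 * c4 / 14) := h6.symm
        _ ≤ C1 * (5 * c0 * c4 / 14) := mul_le_mul_of_nonneg_right hC1 h7.le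
    calc C2 * Real.log t ≤ Real.log t * Real.log t := mul_le_mul_of_nonneg_right hl2 hl0.le
      _ = Real.log t ^ (2 : ℝ) := by
          rw [show (2 : ℝ) = ((2 : ℕ) : ℝ) by norm_num, Real.rpow_natCast]
          ring
      _ ≤ (Real.log t) ^ (C1 * (5 * c0 * c4 / 14)) :=
          Real.rpow_le_rpow_of_exponent_le hl1 h5
  · intro t ht
    change ((Real.log t) ^ C1) ^ (18 * (c0 / 14)) ≤ (t ^ (5 * (c0 / 14))) ^ (1 / 4 : ℝ)
    have ht0 : 0 < t := lt_of_lt_of_le hJs0 ht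
    have hlt : max 1 C2 ≤ Real.log t := by
      rw [Real.le_log_iff_exp_le ht0]
      exact h3.trans ht
    have hl1 : 1 ≤ Real.log t := (le_max_left _ _).trans hlt
    rw [← Real.rpow_mul (by linarith), ← Real.rpow_mul ht0.le]
    exact hT t (h1.trans ht)

end Vale.P028.SK
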