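/-
Seat helper367 (P028, full BM, class TS): the dichotomy for the split cells.

A pair which is clean above `z_j` either stays in one cell down to `z_i` or one of the two reduced
cofactors exceeds `z_i`.
-/
import Vale.Agent.P028.R367.TSLev
import Vale.Agent.P028.H676.Agr

open Finset Vale.P028 Vale.P028.CF

namespace Vale.P028.SK

variable {g : Cfg}

/-- If both reduced cofactors of a pair which is clean above `z_j` are at most `z_i`, then the
centres of the two elements are the same above `z_i`. -/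
theorem kc_eq_of_small (hJ : JsOK g.K g.Js) (hX : g.Js ≤ g.X) (hV : g.V ⊆ Icc 1 (N g))
    {i j q r : ℕ} (hij : j ≤ i) (hq : q ∈ g.V) (hr : r ∈ g.V) (hc : Clean g (z g j) q r)
    (h1 : rcof (z g j) (N g) (kc g q) q r ≤ z g i)
    (h2 : rcof (z g j) (N g) (kc g q) r q ≤ z g i) :
    r ∈ NT.cell g.V (f g) (thr g) (N g) (z g i) q ∧
      ∀ p ∈ PO (z g i) (N g), kc g r p = kc g q p := by
  have hz : zs g ≤ z g j := zs_le_z hJ hX j
  have hji : z g i ≤ z g j := z_anti g hij
  have hfe : ∀ p' : ℕ, p'.Prime → z g i < p' → p' ≤ z g j →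
      r.factorization p' = q.factorization p' := fun p' hp' h3 h4 =>
    fac_eq_of_gt hV hz hq hr hc h4 (by omega) (by omega)
  have hcell := (clean_cross hV hz hq hr hc).1
  have hcell' : r ∈ NT.cell g.V (f g) (thr g) (N g) (z g i) q :=
    cell_down hr hcell hfe hji
  refine ⟨hcell', fun p hp => ?_⟩
  obtain ⟨h5, h6, h7⟩ := mem_PO.1 hp
  exact kc_congr hcell' h6

/-- **The dichotomy.** -/
theorem kc_or_big (hJ : JsOK g.K g.Js) (hX : g.Js ≤ g.X) (hV : g.V ⊆ Icc 1 (N g))
    {i j q r : ℕ} (hij : j ≤ i) (hq : q ∈ g.V) (hr : r ∈ g.V) (hc : Clean g (z g j) q r) :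
    (∀ p ∈ PO (z g i) (N g), kc g r p = kc g q p) ∨
      z g i < max (rcof (z g j) (N g) (kc g q) q r) (rcof (z g j) (N g) (kc g q) r q) := by
  by_cases h : max (rcof (z g j) (N g) (kc g q) q r) (rcof (z g j) (N g) (kc g q) r q) ≤ z g i
  · exact Or.inl (kc_eq_of_small hJ hX hV hij hq hr hc ((le_max_left _ _).trans h)
      ((le_max_right _ _).trans h)).2
  · exact Or.inr (not_le.1 h)

end Vale.P028.SK
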