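import Vale.Agent.P028.MathlibUsed
import Vale.Agent.P028.R226.LkCover
attribute [-instance] ProperSMul.toContinuousSMul IsTopologicalTorsor.toContinuousSMul IdemSemiring.toCanonicallyOrderedAdd IdemSemiring.toMulLeftMono IdemSemiring.toMulRightMono AddQuantale.instAddLeftMono AddQuantale.instAddRightMono Quantale.instMulLeftMono Quantale.instMulRightMono FiniteDimensional.rclike_to_real IsScalarTower.complexToReal FiniteDimensional.complexToReal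

/-!
# Sum of the energies over sizes, ranks and cuts (seat helper367)

The classes are indexed by a size `k`, a rank `a` of the life of `q`, a rank `a'` of the life of
`r`, a cut `s` and the stage `i`.  For fixed `(k, a, s)` the participants `q` lie in `UL k a s`,
and every `q` is in at most `n₀` of the sets `UL k a s` (`s` varying); the same for `r`.
-/

namespace Vale.P028.SK

open Finset CF

variable {g : Cfg}

open Classical in
/-- the number of the sets which contain an element -/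
theorem sum_sets_le (V S : Finset ℕ) (U : ℕ → Finset ℕ) (F : ℕ → ℝ) (hF : ∀ q, 0 ≤ F q) (n₀ : ℕ)
    (hU : ∀ s ∈ S, U s ⊆ V) (hc : ∀ q ∈ V, (S.filter (fun s => q ∈ U s)).card ≤ n₀) :
    ∑ s ∈ S, ∑ q ∈ U s, F q ≤ n₀ * ∑ q ∈ V, F q := by
  have h1 : ∀ s ∈ S, ∑ q ∈ U s, F q = ∑ q ∈ V, if q ∈ U s then F q else 0 := fun s hs => by
    rw [← sum_filter]
    refine sum_congr ?_ fun _ _ => rfl
    ext q
    rw [mem_filter]
    exact ⟨fun h => ⟨hU s hs h, h⟩, fun h => h.2⟩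
  rw [sum_congr rfl h1, sum_comm, mul_sum]
  refine sum_le_sum fun q hq => ?_
  rw [← sum_filter, sum_const, nsmul_eq_mul]
  exact mul_le_mul_of_nonneg_right (by exact_mod_cast hc q hq) (hF q)

theorem geom_leP4 {b : ℝ} (h0 : 0 ≤ b) (h1 : b < 1) (n : ℕ) :
    ∑ k ∈ range n, b ^ k ≤ 1 / (1 - b) := by
  have h : 0 < 1 - b := by linarith
  rw [le_div_iff₀ h, ← neg_le_neg_iff, ← mul_neg, neg_sub, geom_sum_mul]
  have : 0 ≤ b ^ n := pow_nonneg h0 n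
  linarith

open Classical in
/-- **The sum over the sizes, the ranks and the cuts.** -/
theorem EnS_ranks {δ : ℕ → ℕ → ℝ} (hδ : Om δ) {A b θ : ℝ} (hA : 0 ≤ A) (hb : 0 ≤ b) (hb1 : b < 1)
    (hθ : 0 ≤ θ) (hθ1 : θ < 1) (n₀ nk nr : ℕ) (S I : Finset ℕ)
    (TT : ℕ → ℕ → ℤ → Prop) (T : ℕ → ℕ → ℕ → ℕ → ℕ → ℕ → ℕ → ℤ → Prop)
    (UL UR : ℕ → ℕ → ℕ → Finset ℕ)
    (cov : ∀ q ∈ V1 g, ∀ r ∈ V1 g, ∀ n, TT q r n → ∃ k < nk, ∃ a < nr, ∃ a' < nr, ∃ s ∈ S,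
      ∃ i ∈ I, T k a a' s i q r n)
    (en : ∀ k < nk, ∀ a < nr, ∀ a' < nr, ∀ s ∈ S,
      ∑ i ∈ I, EnS g (V1 g) δ (T k a a' s i) ≤
        A * b ^ k * (θ ^ a * θ ^ a') * (∑ q ∈ UL k a s, f g q + ∑ r ∈ UR k a' s, f g r))
    (hL : ∀ k < nk, ∀ a < nr, ∀ s ∈ S, UL k a s ⊆ V1 g)
    (hR : ∀ k < nk, ∀ a < nr, ∀ s ∈ S, UR k a s ⊆ V1 g)
    (cL : ∀ k < nk, ∀ a < nr, ∀ q ∈ V1 g, (S.filter (fun s => q ∈ UL k a s)).card ≤ n₀)
    (cR : ∀ k < nk, ∀ a < nr, ∀ q ∈ V1 g, (S.filter (fun s => q ∈ UR k a s)).card ≤ n₀) :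
    EnS g (V1 g) δ TT ≤ A * (2 * n₀) / ((1 - b) * (1 - θ) ^ 2) * ∑ q ∈ V1 g, f g q := by
  have hsum : 0 ≤ ∑ q ∈ V1 g, f g q := sum_nonneg fun q _ => f_nonneg g q
  -- the cover
  have e1 : EnS g (V1 g) δ TT ≤ ∑ k ∈ range nk, ∑ a ∈ range nr, ∑ a' ∈ range nr, ∑ s ∈ S,
      ∑ i ∈ I, EnS g (V1 g) δ (T k a a' s i) := by
    refine le_trans (EnS_mono g hδ (T' := fun q r n => ∃ k ∈ range nk, ∃ a ∈ range nr,
      ∃ a' ∈ range nr, ∃ s ∈ S, ∃ i ∈ I, T k a a' s i q r n) fun q hq r hr n _ h => ?_) ?_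
    · obtain ⟨k, hk, a, ha, a', ha', h⟩ := cov q hq r (mem_of_mem_erase hr) n h
      exact ⟨k, mem_range.2 hk, a, mem_range.2 ha, a', mem_range.2 ha', h⟩
    refine (EnS_exists (g := g) hδ (V1 g) (range nk) fun k q r n => ∃ a ∈ range nr,
      ∃ a' ∈ range nr, ∃ s ∈ S, ∃ i ∈ I, T k a a' s i q r n).trans (sum_le_sum fun k _ => ?_)
    refine (EnS_exists (g := g) hδ (V1 g) (range nr) fun a q r n =>
      ∃ a' ∈ range nr, ∃ s ∈ S, ∃ i ∈ I, T k a a' s i q r n).trans (sum_le_sum fun a _ => ?_)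
    refine (EnS_exists (g := g) hδ (V1 g) (range nr) fun a' q r n =>
      ∃ s ∈ S, ∃ i ∈ I, T k a a' s i q r n).trans (sum_le_sum fun a' _ => ?_)
    refine (EnS_exists (g := g) hδ (V1 g) S fun s q r n =>
      ∃ i ∈ I, T k a a' s i q r n).trans (sum_le_sum fun s _ => ?_)
    exact EnS_exists (g := g) hδ (V1 g) I fun i q r n => T k a a' s i q r n
  refine e1.trans ?_
  -- one size
  have e2 : ∀ k ∈ range nk, ∑ a ∈ range nr, ∑ a' ∈ range nr, ∑ s ∈ S,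
      ∑ i ∈ I, EnS g (V1 g) δ (T k a a' s i) ≤
      b ^ k * (A * (2 * n₀) * (1 / (1 - θ)) ^ 2 * ∑ q ∈ V1 g, f g q) := by
    intro k hk
    rw [mem_range] at hk
    have hbk : 0 ≤ b ^ k := pow_nonneg hb k
    have e3 : ∀ a ∈ range nr, ∀ a' ∈ range nr, ∑ s ∈ S,
        ∑ i ∈ I, EnS g (V1 g) δ (T k a a' s i) ≤
        θ ^ a * θ ^ a' * (A * b ^ k * (2 * n₀) * ∑ q ∈ V1 g, f g q) := by
      intro a ha a' ha'
      rw [mem_range] at ha ha'
      have hθa : 0 ≤ θ ^ a * θ ^ a' := mul_nonneg (pow_nonneg hθ a) (pow_nonneg hθ a')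
      have s1 := sum_sets_le (V1 g) S (UL k a) (f g) (f_nonneg g) n₀ (hL k hk a ha) (cL k hk a ha)
      have s2 := sum_sets_le (V1 g) S (UR k a') (f g) (f_nonneg g) n₀ (hR k hk a' ha')
        (cR k hk a' ha')
      calc ∑ s ∈ S, ∑ i ∈ I, EnS g (V1 g) δ (T k a a' s i)
          ≤ ∑ s ∈ S, A * b ^ k * (θ ^ a * θ ^ a') *
            (∑ q ∈ UL k a s, f g q + ∑ r ∈ UR k a' s, f g r) :=
            sum_le_sum fun s hs => en k hk a ha a' ha' s hs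
        _ = A * b ^ k * (θ ^ a * θ ^ a') *
            (∑ s ∈ S, ∑ q ∈ UL k a s, f g q + ∑ s ∈ S, ∑ r ∈ UR k a' s, f g r) := by
            rw [← mul_sum, sum_add_distrib]
        _ ≤ A * b ^ k * (θ ^ a * θ ^ a') *
            (n₀ * ∑ q ∈ V1 g, f g q + n₀ * ∑ q ∈ V1 g, f g q) := by
            refine mul_le_mul_of_nonneg_left (add_le_add s1 s2) ?_
            positivity
        _ = _ := by ring
    have hg := geom_leP4 hθ hθ1 nr
    have hg0 : 0 ≤ ∑ a ∈ range nr, θ ^ a := sum_nonneg fun a _ => pow_nonneg hθ a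
    calc ∑ a ∈ range nr, ∑ a' ∈ range nr, ∑ s ∈ S, ∑ i ∈ I, EnS g (V1 g) δ (T k a a' s i)
        ≤ ∑ a ∈ range nr, ∑ a' ∈ range nr,
          θ ^ a * θ ^ a' * (A * b ^ k * (2 * n₀) * ∑ q ∈ V1 g, f g q) :=
          sum_le_sum fun a ha => sum_le_sum fun a' ha' => e3 a ha a' ha'
      _ = (∑ a ∈ range nr, θ ^ a) * (∑ a' ∈ range nr, θ ^ a') *
          (A * b ^ k * (2 * n₀) * ∑ q ∈ V1 g, f g q) := by
          simp_rw [← sum_mul]
          rw [sum_mul_sum]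
      _ ≤ (1 / (1 - θ)) * (1 / (1 - θ)) * (A * b ^ k * (2 * n₀) * ∑ q ∈ V1 g, f g q) := by
          refine mul_le_mul_of_nonneg_right (mul_le_mul hg hg hg0 (hg0.trans hg)) ?_
          positivity
      _ = _ := by ring
  calc _ ≤ ∑ k ∈ range nk, b ^ k * (A * (2 * n₀) * (1 / (1 - θ)) ^ 2 * ∑ q ∈ V1 g, f g q) :=
        sum_le_sum e2
    _ = (∑ k ∈ range nk, b ^ k) * (A * (2 * n₀) * (1 / (1 - θ)) ^ 2 * ∑ q ∈ V1 g, f g q) := by
        rw [sum_mul]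
    _ ≤ 1 / (1 - b) * (A * (2 * n₀) * (1 / (1 - θ)) ^ 2 * ∑ q ∈ V1 g, f g q) := by
        refine mul_le_mul_of_nonneg_right (geom_leP4 hb hb1 nk) ?_
        positivity
    _ = _ := by
        have h1 : (1 - b) ≠ 0 := by linarith
        have h2 : (1 - θ) ≠ 0 := by linarith
        field_simp

end Vale.P028.SK
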